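import Crest.Agent.R27.G.Psi

/-! Row 27, block G: the cubic Jacobi sum is minus the primary generator of the relative norm.  Prefix `jac_`. -/

set_option autoImplicit false

namespace Crest.Agent.R27.G

open Crest.Agent.R17 Crest.NumberTheoryR.EisensteinField
open scoped ComplexConjugate Classical NumberField

/-! ### part a: finite fields -/

/-- induction on `e` with Lucas' theorem `Choose.choose_modEq_choose_mod_mul_choose_div_nat`:
`m_(e+1) = m_e r + m_1`, `2 m_1 < r` -/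
theorem jac_choose {r : ℕ} (hr : r.Prime) (h3 : r % 3 = 1) (e m : ℕ) (hm : r ^ e = 3 * m + 1) :
    ¬ r ∣ (2 * m).choose m := by
  induction e generalizing m with
  | zero =>
    obtain rfl : m = 0 := by rw [pow_zero] at hm; omega
    simpa using hr.ne_one
  | succ e ih =>
    have : Fact r.Prime := ⟨hr⟩
    obtain ⟨a, ha⟩ : ∃ a, r = 3 * a + 1 := ⟨r / 3, by omega⟩
    obtain ⟨b, hb⟩ : ∃ b, r ^ e = 3 * b + 1 := ⟨r ^ e / 3, by
      have : r ^ e % 3 = 1 := by rw [Nat.pow_mod, h3]; simp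
      omega⟩
    have hm' : m = a + r * b := by
      rw [pow_succ, hb] at hm
      have : (3 * b + 1) * r = 3 * (r * b) + r := by ring
      omega
    have h1 : m % r = a := by rw [hm', Nat.add_mul_mod_self_left, Nat.mod_eq_of_lt (by omega)]
    have h2 : m / r = b := by
      rw [hm', Nat.add_mul_div_left _ _ hr.pos, Nat.div_eq_of_lt (by omega), zero_add]
    have e2 : 2 * m = 2 * a + r * (2 * b) := by rw [hm']; ring
    have h4 : 2 * m % r = 2 * a := by rw [e2, Nat.add_mul_mod_self_left, Nat.mod_eq_of_lt (by omega)]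
    have h5 : 2 * m / r = 2 * b := by
      rw [e2, Nat.add_mul_div_left _ _ hr.pos, Nat.div_eq_of_lt (by omega), zero_add]
    have h6 := Choose.choose_modEq_choose_mod_mul_choose_div_nat (n := 2 * m) (k := m) (p := r)
    rw [h1, h2, h4, h5] at h6
    intro hd
    rcases hr.dvd_mul.1 ((h6.dvd_iff dvd_rfl).1 hd) with h7 | h7
    · have h8 : r ∣ (2 * a).factorial := by
        rw [← Nat.choose_mul_factorial_mul_factorial (show a ≤ 2 * a by omega), mul_assoc]
        exact h7.mul_right _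
      have := hr.dvd_factorial.1 h8
      omega
    · exact ih b hb h7

theorem jaca_pow {k : Type*} [Field k] [Fintype k] {i : ℕ} (hi : i ≠ 0) :
    ∑ x : k, x ^ i = if Fintype.card k - 1 ∣ i then -1 else 0 := by
  rw [← FiniteField.sum_pow_units k i, Fintype.sum_eq_add_sum_compl 0, zero_pow hi, zero_add]
  refine (Finset.sum_bij (fun (x : kˣ) _ => (x : k)) (fun x _ => by simp) (fun x _ y _ h => Units.ext h)
    (fun x hx => ⟨Units.mk0 x (by simpa using hx), Finset.mem_univ _, rfl⟩) fun _ _ => rfl).symm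

/-- expand `(1 - x)^(2m)`; `∑ x^i` is `-1` if `0 < i`, `3m ∣ i` and `0` otherwise (`FiniteField.sum_pow_units`, compare
`R17.cua_sum`) -/
theorem jac_sum {k : Type*} [Field k] [Fintype k] {m : ℕ} (hm : Fintype.card k = 3 * m + 1) :
    ∑ x : k, x ^ (2 * m) * (1 - x) ^ (2 * m) = -((-1) ^ m * ((2 * m).choose m : k)) := by
  have h1 : 1 < Fintype.card k := Fintype.one_lt_card
  have e : ∀ x : k, x ^ (2 * m) * (1 - x) ^ (2 * m) =
      ∑ j ∈ Finset.range (2 * m + 1), (-1) ^ j * ((2 * m).choose j : k) * x ^ (2 * m + j) := by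
    intro x
    rw [sub_eq_neg_add, add_pow, Finset.mul_sum]
    refine Finset.sum_congr rfl fun j _ => ?_
    rw [neg_pow x]
    ring
  simp only [e]
  rw [Finset.sum_comm, Finset.sum_eq_single m]
  · rw [← Finset.mul_sum, jaca_pow (by omega), if_pos ⟨1, by omega⟩]
    ring
  · intro j hj hjm
    have := Finset.mem_range.1 hj
    rw [← Finset.mul_sum, jaca_pow (by omega), if_neg, mul_zero]
    rw [hm, Nat.add_sub_cancel]
    rintro ⟨c, hc⟩
    rcases c with _ | _ | c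
    · omega
    · omega
    · have : 3 * m * (c + 1 + 1) = 3 * (m * c) + 6 * m := by ring
      omega
  · intro h
    exact absurd (Finset.mem_range.2 (by omega)) h

theorem jacb_cj {k : Type} [Field k] {χ : MulChar k O} (h3 : χ ^ 3 = 1) (x : k) : cj (χ x) = χ x ^ 2 := by
  by_cases hx : IsUnit x
  · have h1 : χ x ^ 3 = 1 := by rw [← MulChar.pow_apply' _ three_ne_zero, h3, MulChar.one_apply hx]
    have h2 := mul_cj (χ x)
    rw [nN_eq_one.2 (hx.map χ), Nat.cast_one] at h2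
    linear_combination χ x ^ 2 * h2 - cj (χ x) * h1
  · rw [MulChar.map_nonunit _ hx, map_zero, zero_pow two_ne_zero]

theorem jacb_norm {k : Type} [Field k] [Fintype k] {χ : MulChar k O} (h3 : χ ^ 3 = 1) (h1 : χ ≠ 1) :
    nN (jacobiSum χ χ) = Fintype.card k := by
  have b1 : χ.ringHomComp sg ≠ 1 := (MulChar.ringHomComp_ne_one_iff sg_injective).2 h1
  have b3 : χ.ringHomComp sg ^ 3 = 1 := by
    rw [MulChar.ringHomComp_pow, h3, MulChar.ringHomComp_one]
  have b4 := jacobiSum_mul_jacobiSum_inv (F := k) (F' := ℂ) (by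
    rw [ringChar.eq_zero]
    exact (CharP.char_is_prime k _).ne_zero.symm) b1 b1 (cua_sq_ne b3 b1)
  rw [← MulChar.star_eq_inv] at b4
  have b5 := jacobiSum_ringHomComp (χ.ringHomComp sg) (χ.ringHomComp sg) (starRingEnd ℂ)
  change jacobiSum (star _) (star _) = _ at b5
  rw [b5, jacobiSum_ringHomComp, ← sg_cj, ← map_mul, mul_cj, map_natCast] at b4
  exact_mod_cast b4

/-- As `R17.cua_jac`: `J' = -J` is primary of norm `card k = N p ^ f`, so `J' ∣ p^f (cj p)^f`.  `prime_cases`: if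
`p ~ r` is inert then `cj p ~ p`; if `N p = r` is prime (`r % 3 = 1`) then `φ (cj J) = ∑ x^(2m) (1-x)^(2m) ≠ 0`
(`cj (χ x) = χ x ^ 2`), so `cj p ∤ J`.  In both cases `J' ∣ p^(2f)`; `dvd_prime_pow`, compare norms,
`Prim.eq_of_associated`. -/
theorem jac_field {p : O} (hp : Prime p) (h : Prim p) {k : Type} [Field k] [Fintype k] {φ : O →+* k}
    {χ : MulChar k O} {f : ℕ} (hk : ∀ u, φ u = 0 ↔ p ∣ u) (hc : Fintype.card k = nN p ^ f) (h3 : χ ^ 3 = 1)
    (h1 : χ ≠ 1) (hφ : ∀ x, φ (χ x) = x ^ ((Fintype.card k - 1) / 3)) : jacobiSum χ χ = -p ^ f := by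
  have hm := nN_mod_three h.coprime_three
  have hq : Fintype.card k % 3 = 1 := by rw [hc, Nat.pow_mod, hm, one_pow, Nat.one_mod_eq_one.2 (by norm_num)]
  obtain ⟨z, -, hz⟩ := exists_jacobiSum_eq_neg_one_add (n := 3) (by norm_num) h3 h3 (by omega)
    (isPrimitiveRoot_sg_om.of_map_of_injective sg_injective)
  have a1 : Prim (-jacobiSum χ χ) := ⟨z * om, by rw [hz, cua_om_sub_sq]; ring⟩
  have a3 := jacb_norm h3 h1
  have a2 : jacobiSum χ χ ∣ p ^ f * cj p ^ f :=
    ⟨cj (jacobiSum χ χ), by rw [mul_cj, a3, hc, ← mul_pow, mul_cj, Nat.cast_pow]⟩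
  have a4 : jacobiSum χ χ ∣ p ^ (f + f) := by
    rcases prime_cases hp with hr | ⟨r, -, -, hr⟩
    · obtain ⟨m, hm'⟩ : ∃ m, Fintype.card k = 3 * m + 1 := ⟨Fintype.card k / 3, by omega⟩
      have : CharP k (nN p) := ringChar.of_eq (CharP.ringChar_of_prime_eq_zero hr
        (by rw [← map_natCast φ, hk]; exact dvd_nN p))
      have b1 : ¬ cj p ∣ jacobiSum χ χ := by
        rw [← cj_dvd_cj, cj_cj, ← hk, jacobiSum, map_sum, map_sum]
        simp only [map_mul, jacb_cj h3, map_pow, hφ, ← pow_mul]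
        rw [show (Fintype.card k - 1) / 3 * 2 = 2 * m by omega, jac_sum hm', neg_eq_zero, mul_eq_zero,
          CharP.cast_eq_zero_iff k (nN p)]
        exact not_or.2 ⟨pow_ne_zero _ (neg_ne_zero.2 one_ne_zero), jac_choose hr hm f m (hc ▸ hm')⟩
      exact (((prime_cj hp).coprime_iff_not_dvd.2 b1).symm.pow_right.dvd_of_dvd_mul_right a2).trans
        (pow_dvd_pow p (Nat.le_add_right f f))
    · have b1 : cj p ∣ p := by
        have := map_dvd cj hr.dvd
        rw [map_natCast] at this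
        exact this.trans hr.symm.dvd
      rw [pow_add]
      exact a2.trans (mul_dvd_mul_left _ (pow_dvd_pow_of_dvd b1 f))
  obtain ⟨i, -, hi⟩ := (dvd_prime_pow hp _).1 a4
  have a5 := nN_assoc hi
  rw [a3, hc, nN_pow] at a5
  have a6 : 2 ≤ nN p := by
    have b1 : nN p ≠ 1 := fun e => hp.not_isUnit (nN_eq_one.1 e)
    omega
  rw [Nat.pow_right_injective a6 a5, ← a1.eq_of_associated (h.pow i) hi.neg_left, neg_neg]

/-! ### part b: prime ideals -/

theorem pg_spec {I : Ideal O} (h : Cp I 3) : Prim (pg I) ∧ I = Ideal.span {pg I} := by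
  have h' : ∃ π, Prim π ∧ I = Ideal.span {π} := by
    obtain ⟨n, rfl⟩ : ∃ n, I = Ideal.span {n} := ⟨_, (Ideal.span_singleton_generator I).symm⟩
    obtain ⟨u, m, hu, hm, rfl⟩ := exists_unit_prim (coprime_three_iff.1 (cp_span.1 h))
    exact ⟨m, hm, Ideal.span_singleton_mul_left_unit hu m⟩
  rw [pg, dif_pos h']
  exact h'.choose_spec

theorem pg_eq {I : Ideal O} {π : O} (hπ : Prim π) (h : I = Ideal.span {π}) : pg I = π := by
  obtain ⟨h1, h2⟩ := pg_spec (I := I) (h ▸ cp_span.2 hπ.coprime_three)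
  exact h1.eq_of_associated hπ (Ideal.span_singleton_eq_span_singleton.1 (h2.symm.trans h))

variable {F : Type} [Field F] [NumberField F] [Algebra K3 F]

theorem jacc_ex {P : Ideal (𝓞 F)} (hP : Prime P) (h6 : Cp P 6) (u : 𝓞 F) : ∃ c : O, sg c = sI u P ^ 2 ∧
    Ideal.Quotient.mk P (algebraMap O (𝓞 F) c) = Ideal.Quotient.mk P u ^ ((Ideal.absNorm P - 1) / 3) := by
  have h1 := absNorm_mod_six h6
  by_cases hu : u ∈ P
  · have h2 : Ideal.absNorm P ≠ 1 := fun h => (symb_max hP).ne_top (Ideal.absNorm_eq_one_iff.1 h)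
    refine ⟨0, by rw [map_zero, sI_prime_eq_zero hP hu, zero_pow two_ne_zero], ?_⟩
    rw [map_zero, map_zero, Ideal.Quotient.eq_zero_iff_mem.2 hu, zero_pow (by omega)]
  · obtain ⟨j, -, hj, hj'⟩ := exists_sI_mem hP h6 hu
    refine ⟨(zt ^ j) ^ 2, by rw [map_pow, map_pow, hj'], ?_⟩
    rw [show (Ideal.absNorm P - 1) / 3 = (Ideal.absNorm P - 1) / 6 * 2 by omega, pow_mul, ← map_pow _ u,
      Ideal.Quotient.eq.2 hj, map_pow, map_pow, map_pow (algebraMap O (𝓞 F))]

omit [NumberField F] [Algebra K3 F] in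
theorem jacc_out {P : Ideal (𝓞 F)} (x : 𝓞 F ⧸ P) : Ideal.Quotient.mk P (Quotient.out x) = x :=
  Ideal.Quotient.mk_out x

/-- the `O`-valued cubic character: `χ x` is the unique `c ∈ O` with `sg c = sI x P ^ 2` (`exists_sI_mem`,
`sI_prime_eq_zero`, `sg_injective`, `exists_sI_eq_zt`) -/
theorem jac_char {P : Ideal (𝓞 F)} (hP : Prime P) (h6 : Cp P 6) : ∃ χ : MulChar (𝓞 F ⧸ P) O, χ ^ 3 = 1 ∧ χ ≠ 1 ∧
    (∀ u, sg (χ (Ideal.Quotient.mk P u)) = sI u P ^ 2) ∧
    ∀ x, Ideal.Quotient.mk P (algebraMap O (𝓞 F) (χ x)) = x ^ ((Ideal.absNorm P - 1) / 3) := by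
  choose c hc hc' using fun x : 𝓞 F ⧸ P => jacc_ex hP h6 (Quotient.out x)
  have hsg : ∀ u, sg (c (Ideal.Quotient.mk P u)) = sI u P ^ 2 := fun u => by
    rw [hc, sI_congr (Ideal.Quotient.eq.1 (jacc_out (Ideal.Quotient.mk P u)))]
  let χ : MulChar (𝓞 F ⧸ P) O :=
    { toFun := c
      map_one' := sg_injective (by
        rw [← map_one (Ideal.Quotient.mk P), hsg, sI_one_left, if_pos h6, one_pow, map_one])
      map_mul' := fun x y => sg_injective (by
        obtain ⟨u, rfl⟩ := Ideal.Quotient.mk_surjective x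
        obtain ⟨w, rfl⟩ := Ideal.Quotient.mk_surjective y
        rw [← map_mul (Ideal.Quotient.mk P), hsg, map_mul, hsg, hsg, sI_mul_left, mul_pow])
      map_nonunit' := fun x hx => sg_injective (by
        obtain ⟨u, rfl⟩ := Ideal.Quotient.mk_surjective x
        have hu : u ∈ P := not_not.1 fun h => hx (cp_iff_isUnit.1 ((cp_max (symb_max hP)).2 h))
        change sg (c _) = _
        rw [hsg, sI_prime_eq_zero hP hu, zero_pow two_ne_zero, map_zero]) }
  have hχ : ∀ x, χ x = c x := fun _ => rfl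
  refine ⟨χ, ?_, ?_, hsg, fun x => (hc' x).trans (by rw [jacc_out])⟩
  · refine MulChar.ext fun a => sg_injective ?_
    obtain ⟨u, hu⟩ := Ideal.Quotient.mk_surjective (a : 𝓞 F ⧸ P)
    have hcp : Cp P u := cp_iff_isUnit.2 (hu ▸ a.isUnit)
    rw [MulChar.pow_apply_coe, MulChar.one_apply_coe, ← hu, map_pow, hχ, hsg, ← pow_mul, sI_pow_six,
      if_pos ⟨h6, hcp⟩, map_one]
  · intro h
    obtain ⟨u, hu⟩ := exists_sI_eq_zt hP h6
    have hcp : Cp P u := (sI_ne_zero.1 (hu ▸ sya_sg_ne)).2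
    have h1 := hsg u
    rw [← hχ, h, MulChar.one_apply (cp_iff_isUnit.1 hcp), hu, ← map_pow] at h1
    have h2 : zt ^ 0 = zt ^ 2 := (pow_zero _).trans (sg_injective h1)
    exact absurd (zt_pow_inj (by norm_num) (by norm_num) h2) (by norm_num)

/-- `p` = primary generator of `P.under O`, `Ideal.relNorm_eq_pow_of_isMaximal`, `Ideal.absNorm_relNorm`, `jac_field` -/
theorem jac_prime {P : Ideal (𝓞 F)} (hP : Prime P) (h6 : Cp P 6) :
    ∑ᶠ x : 𝓞 F ⧸ P, sI (Quotient.out x) P ^ 2 * sI (1 - Quotient.out x) P ^ 2 = -sg (pg (Ideal.relNorm O P)) := by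
  have hm := symb_max hP
  have hm' : (P.under O).IsMaximal := Ideal.IsMaximal.under O P
  have h3 : Cp (P.under O) 3 := (cp_max hm').2 fun h => (cp_max hm).1 h6 (by
    have h' : algebraMap O (𝓞 F) 3 ∈ P := h
    rw [map_ofNat] at h'
    rw [show (6 : 𝓞 F) = 2 * 3 by norm_num]
    exact P.mul_mem_left _ h')
  obtain ⟨hp1, hp2⟩ := pg_spec h3
  generalize pg (P.under O) = p at hp1 hp2
  have hp : Prime p := (Ideal.span_singleton_prime hp1.ne_zero).1 (hp2 ▸ hm'.isPrime)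
  have hrel : Ideal.relNorm O P = Ideal.span {p ^ P.inertiaDeg O} := by
    rw [Ideal.relNorm_eq_pow_of_isMaximal P (P.under O), hp2, Ideal.span_singleton_pow]
  generalize P.inertiaDeg O = f at hrel
  have : Finite (𝓞 F ⧸ P) := Ideal.finiteQuotientOfFreeOfNeBot P hP.ne_zero
  let : Fintype (𝓞 F ⧸ P) := Fintype.ofFinite _
  let : Field (𝓞 F ⧸ P) := Ideal.Quotient.field P
  have hc : Ideal.absNorm P = Fintype.card (𝓞 F ⧸ P) := by
    rw [Ideal.absNorm_apply, Submodule.cardQuot_apply, Nat.card_eq_fintype_card]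
  obtain ⟨χ, h1, h2, h4, h5⟩ := jac_char hP h6
  have hJ := jac_field hp hp1 (k := 𝓞 F ⧸ P) (φ := (Ideal.Quotient.mk P).comp (algebraMap O (𝓞 F))) (χ := χ)
    (f := f) (fun u => by
      rw [RingHom.comp_apply, Ideal.Quotient.eq_zero_iff_mem, ← Ideal.mem_span_singleton, ← hp2]
      rfl)
    (by rw [← hc, ← Ideal.absNorm_relNorm O, hrel, ← nN_pow, nN]) h1 h2 (fun x => hc ▸ h5 x)
  rw [pg_eq (hp1.pow f) hrel, ← map_neg, ← hJ, jacobiSum, map_sum, finsum_eq_sum_of_fintype]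
  refine Finset.sum_congr rfl fun x _ => ?_
  rw [map_mul, ← h4, ← h4, map_sub, map_one, jacc_out]

/-- the norm of `I` is prime to `3` (`absNorm_mod_six`, `Ideal.absNorm_relNorm`, `nN_lam`) -/
theorem cp_relNorm {I : Ideal (𝓞 F)} (h : Cp I 6) : Cp (Ideal.relNorm O I) 3 := by
  have h1 := absNorm_mod_six h
  rw [← Ideal.absNorm_relNorm O _ I] at h1
  obtain ⟨n, hn⟩ : ∃ n, Ideal.relNorm O I = Ideal.span {n} := ⟨_, (Ideal.span_singleton_generator _).symm⟩
  rw [hn] at h1 ⊢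
  refine cp_span.2 (coprime_three_iff.2 fun hd => ?_)
  have h2 := nN_dvd hd
  rw [nN_lam, nN] at h2
  omega

/-- `Algebra.intNorm` is the determinant of multiplication (`𝓞 F` is free over the PID `O`, `Algebra.intNorm_eq_norm`);
`1 + 3 B` has determinant `≡ 1` (`RingHom.map_det` for `O → O ⧸ (3)`) -/
theorem prim_intNorm {a : 𝓞 F} (h : (3 : 𝓞 F) ∣ a - 1) : Prim (Algebra.intNorm O (𝓞 F) a) := by
  obtain ⟨b, hb⟩ := h
  obtain rfl : a = 1 + (3 : O) • b := by
    rw [Algebra.smul_def, map_ofNat]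
    linear_combination hb
  let B := Module.Free.chooseBasis O (𝓞 F)
  rw [Algebra.intNorm_eq_norm, Algebra.norm_eq_matrix_det B, map_add, map_one, map_smul, Prim,
    ← Ideal.mem_span_singleton, ← Ideal.Quotient.eq, RingHom.map_det, map_one, map_add, map_one]
  have h3 : Ideal.Quotient.mk (Ideal.span {(3 : O)}) 3 = 0 :=
    Ideal.Quotient.eq_zero_iff_mem.2 (Ideal.mem_span_singleton_self _)
  have : (Ideal.Quotient.mk (Ideal.span {(3 : O)})).mapMatrix ((3 : O) • Algebra.leftMulMatrix B b) = 0 := by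
    ext i j
    simp only [RingHom.mapMatrix_apply, Matrix.map_apply, Matrix.smul_apply, smul_eq_mul, map_mul, h3,
      zero_mul, Matrix.zero_apply]
  rw [this, add_zero, Matrix.det_one]

namespace Lv

variable (v : Lv F)

/-! ### part c: the angle -/

theorem nrm_spec {n : v.R} (hn : n ≠ 0) :
    Prim (v.nrm n) ∧ Ideal.relNorm O (v.idl n) = Ideal.span {v.nrm n} := pg_spec (cp_relNorm (v.cp_idl_six hn))

theorem nrm_zero : v.nrm 0 = 0 := by
  rw [nrm, idl_zero, Ideal.relNorm_bot, pg, dif_neg]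
  rintro ⟨π, hπ, h⟩
  exact hπ.ne_zero (Ideal.span_singleton_eq_bot.1 h.symm)

theorem nrm_mul (m n : v.R) : v.nrm (m * n) = v.nrm m * v.nrm n := by
  by_cases hm : m = 0
  · rw [hm, zero_mul, nrm_zero, zero_mul]
  by_cases hn : n = 0
  · rw [hn, mul_zero, nrm_zero, mul_zero]
  refine pg_eq ((v.nrm_spec hm).1.mul (v.nrm_spec hn).1) ?_
  rw [idl_mul, map_mul, ← Ideal.span_singleton_mul_span_singleton, ← (v.nrm_spec hm).2, ← (v.nrm_spec hn).2]

theorem nrm_unit {n : v.R} (h : IsUnit n) : v.nrm n = 1 :=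
  pg_eq prim_one (by rw [v.idl_unit h, Ideal.relNorm_top, Ideal.span_singleton_one])

theorem nN_nrm (n : v.R) : nN (v.nrm n) = v.N n := by
  by_cases hn : n = 0
  · rw [hn, nrm_zero, nN_zero, N, idl_zero, Ideal.absNorm_bot]
  · rw [nN, ← (v.nrm_spec hn).2, Ideal.absNorm_relNorm, N]

/-- `Ideal.relNorm_singleton` -/
theorem nrm_up {a : 𝓞 F} (h : IsCoprime a (v.M : 𝓞 F)) (h3 : (3 : 𝓞 F) ∣ a - 1) :
    v.nrm (v.up a) = Algebra.intNorm O (𝓞 F) a :=
  pg_eq (prim_intNorm h3) (by rw [v.idl_up h, Ideal.relNorm_singleton])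

theorem al_mul (m n : v.R) : v.al (m * n) = v.al m * v.al n := by rw [al, nrm_mul, R17.al_mul, al, al]

theorem al_unit {n : v.R} (h : IsUnit n) : v.al n = 1 := by
  rw [al, v.nrm_unit h, R17.al_one]

theorem norm_al {n : v.R} (hn : n ≠ 0) : ‖v.al n‖ = 1 := R17.norm_al (v.nrm_spec hn).1.ne_zero

/-- transfer of complete sums from `R ⧸ (n)` to `𝓞 F ⧸ idl n` (`quot_bij`, `finsum_comp_equiv` / `finsum_eq_of_bijective`) -/
theorem sum_quot {n : v.R} (hn : n ≠ 0) {f : v.R → ℂ} (hf : ∀ a b, n ∣ a - b → f a = f b) :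
    ∑ᶠ y : v.R ⧸ Ideal.span {n}, f (Quotient.out y) = ∑ᶠ x : 𝓞 F ⧸ v.idl n, f (v.up (Quotient.out x)) := by
  refine (finsum_eq_of_bijective _ (v.quot_bij hn) fun x => hf _ _ ?_).symm
  rw [← Ideal.mem_span_singleton, ← Ideal.Quotient.eq, Ideal.Quotient.mk_out]
  conv_rhs => rw [← Ideal.Quotient.mk_out x]
  rfl

theorem jac {p : v.R} (hp : Prime p) :
    ∑ᶠ y : v.R ⧸ Ideal.span {p}, v.sx (Quotient.out y) p ^ 2 * v.sx (1 - Quotient.out y) p ^ 2 =
      -(v.al p * (Real.sqrt (v.N p) : ℂ)) := by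
  rw [v.sum_quot hp.ne_zero (f := fun y => v.sx y p ^ 2 * v.sx (1 - y) p ^ 2) fun a b h => by
    rw [v.sx_congr h, v.sx_congr (u := 1 - a) (w := 1 - b) (by rwa [sub_sub_sub_cancel_left, dvd_sub_comm])]]
  have e : ∀ a : 𝓞 F, 1 - v.up a = v.up (1 - a) := fun a => by rw [up, up, map_sub, map_one]
  simp only [e, sx_up]
  rw [jac_prime (v.prime_idl hp) (v.cp_idl_six hp.ne_zero), sg_eq_al, mul_comm, ← nN_nrm]
  rfl

end Lv

end Crest.Agent.R27.G
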