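import Mathlib

/-! Row 27, block G: mean values of periodic functions on abelian groups.  Helper prefix `mean_`. -/

set_option autoImplicit false

namespace Crest.Agent.R27.G

open scoped Classical

variable {A : Type} [AddCommGroup A]

/-- the group of periods -/
def per (f : A → ℂ) : AddSubgroup A where
  carrier := {a | ∀ x, f (x + a) = f x}
  zero_mem' x := by rw [add_zero]
  add_mem' {a b} ha hb x := by rw [← add_assoc, hb, ha]
  neg_mem' {a} ha x := by rw [← ha (x + -a), neg_add_cancel_right]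

/-- `f` has a finite index group of periods -/
def FP (f : A → ℂ) : Prop := (per f).FiniteIndex

/-- the mean value -/
noncomputable def mean (f : A → ℂ) : ℂ := (∑ᶠ q : A ⧸ per f, f (Quotient.out q)) / (per f).index

theorem FP.of_le {f : A → ℂ} {P : AddSubgroup A} (hP : P.FiniteIndex) (h : ∀ a ∈ P, ∀ x, f (x + a) = f x) : FP f := by
  exact @AddSubgroup.finiteIndex_of_le _ _ P (per f) hP fun a ha => h a ha

/-- `g` factors through the surjection `G → A ⧸ per (g ∘ π)`, whose fibres all have the same size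
(`AddMonoidHom.card_fiber_eq_of_mem_range`, `Finset.sum_fiberwise`) -/
theorem mean_eq {G : Type} [AddCommGroup G] [Finite G] (π : A →+ G) (hπ : Function.Surjective π) (g : G → ℂ)
    {f : A → ℂ} (h : ∀ x, f x = g (π x)) : mean f = (∑ᶠ y, g y) / Nat.card G := by
  have := Fintype.ofFinite G
  have hk : π.ker ≤ per f := fun a ha x => by rw [h, h, map_add, (AddMonoidHom.mem_ker).1 ha, add_zero]
  let ρ : G →+ A ⧸ per f := π.liftOfSurjective hπ ⟨QuotientAddGroup.mk' (per f), by
    rwa [QuotientAddGroup.ker_mk']⟩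
  have hρ : ∀ x, ρ (π x) = QuotientAddGroup.mk x := fun x => AddMonoidHom.liftOfRightInverse_comp_apply _ _ _ _ x
  have hs : Function.Surjective ρ := fun q => by
    obtain ⟨x, rfl⟩ := QuotientAddGroup.mk_surjective q
    exact ⟨π x, hρ x⟩
  have := Finite.of_surjective ρ hs
  have := Fintype.ofFinite (A ⧸ per f)
  have hg : ∀ y, g y = f (Quotient.out (ρ y)) := fun y => by
    obtain ⟨x, rfl⟩ := hπ y
    obtain ⟨a, ha⟩ := QuotientAddGroup.mk_out_eq_add (per f) x
    rw [hρ, ha, a.2, h]
  set c := (Finset.univ.filter fun y => ρ y = 0).card with hc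
  have hfib : ∀ q, (Finset.univ.filter fun y => ρ y = q).card = c := fun q =>
    AddMonoidHom.card_fiber_eq_of_mem_range ρ (hs q) (hs 0)
  have key : ∀ F : A ⧸ per f → ℂ, ∑ y, F (ρ y) = c * ∑ q, F q := fun F => by
    rw [← Finset.sum_fiberwise' Finset.univ ρ F, Finset.mul_sum]
    exact Finset.sum_congr rfl fun q _ => by rw [Finset.sum_const, hfib, nsmul_eq_mul]
  have h1 := key fun _ => 1
  simp only [Finset.sum_const, Finset.card_univ, nsmul_eq_mul, mul_one] at h1
  have h0 : (c : ℂ) ≠ 0 := left_ne_zero_of_mul (h1 ▸ Nat.cast_ne_zero.2 Fintype.card_ne_zero)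
  rw [mean, finsum_eq_sum_of_fintype, finsum_eq_sum_of_fintype, Finset.sum_congr rfl fun y _ => hg y,
    key fun q => f (Quotient.out q), AddSubgroup.index_eq_card, Nat.card_eq_fintype_card, Nat.card_eq_fintype_card, h1,
    mul_div_mul_left _ _ h0]

/-- `mean_eq` for `A ⧸ P` -/
theorem mean_eq_quot {f : A → ℂ} {P : AddSubgroup A} (hP : P.FiniteIndex) (h : ∀ a ∈ P, ∀ x, f (x + a) = f x) :
    mean f = (∑ᶠ q : A ⧸ P, f (Quotient.out q)) / P.index := by
  rw [AddSubgroup.index_eq_card]
  refine mean_eq (QuotientAddGroup.mk' P) (QuotientAddGroup.mk'_surjective P) _ fun x => ?_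
  obtain ⟨a, ha⟩ := QuotientAddGroup.mk_out_eq_add P x
  rw [QuotientAddGroup.mk'_apply, ha, h a a.2]

theorem FP.comp {B : Type} [AddCommGroup B] (φ : B →+ A) {f : A → ℂ} (hf : FP f) : FP fun y => f (φ y) := by
  refine FP.of_le (P := (per f).comap φ) ⟨fun h => hf.index_ne_zero ?_⟩ fun a ha x => by rw [map_add, ha]
  rw [AddSubgroup.index_comap] at h
  exact AddSubgroup.index_eq_zero_of_relIndex_eq_zero h

/-- pull back along a map that is surjective modulo periods -/
theorem mean_comp {B : Type} [AddCommGroup B] (φ : B →+ A) {f : A → ℂ} (hf : FP f)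
    (h : ∀ x, ∃ y, φ y - x ∈ per f) : mean (fun y => f (φ y)) = mean f := by
  have : (per f).FiniteIndex := hf
  rw [mean_eq ((QuotientAddGroup.mk' (per f)).comp φ) (fun q => ?_) (fun q => f (Quotient.out q)) fun y => ?_,
    mean, AddSubgroup.index_eq_card]
  · obtain ⟨x, rfl⟩ := QuotientAddGroup.mk_surjective q
    obtain ⟨y, hy⟩ := h x
    exact ⟨y, QuotientAddGroup.eq_iff_sub_mem.2 hy⟩
  · obtain ⟨a, ha⟩ := QuotientAddGroup.mk_out_eq_add (per f) (φ y)
    rw [AddMonoidHom.comp_apply, QuotientAddGroup.mk'_apply, ha, a.2]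

theorem FP.mul {f g : A → ℂ} (hf : FP f) (hg : FP g) : FP fun x => f x * g x := by
  have : (per f).FiniteIndex := hf
  have : (per g).FiniteIndex := hg
  exact FP.of_le (P := per f ⊓ per g) inferInstance fun a ha x => by rw [ha.1, ha.2]

theorem mean_add {f g : A → ℂ} (hf : FP f) (hg : FP g) : mean (fun x => f x + g x) = mean f + mean g := by
  have : (per f).FiniteIndex := hf
  have : (per g).FiniteIndex := hg
  have hP : (per f ⊓ per g).FiniteIndex := inferInstance
  have := Fintype.ofFinite (A ⧸ (per f ⊓ per g))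
  rw [mean_eq_quot hP (f := fun x => f x + g x) fun a ha x => by rw [ha.1, ha.2],
    mean_eq_quot hP (f := f) fun a ha => ha.1, mean_eq_quot hP (f := g) fun a ha => ha.2]
  simp only [finsum_eq_sum_of_fintype, Finset.sum_add_distrib, add_div]

theorem mean_shift {f : A → ℂ} (hf : FP f) (z : A) : mean (fun x => f (x + z)) = mean f := by
  have : (per f).FiniteIndex := hf
  have := Fintype.ofFinite (A ⧸ per f)
  rw [mean_eq (QuotientAddGroup.mk' (per f)) (QuotientAddGroup.mk'_surjective _)
    (fun q => f (Quotient.out (q + QuotientAddGroup.mk z))) fun x => ?_, mean, AddSubgroup.index_eq_card,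
    finsum_eq_sum_of_fintype, finsum_eq_sum_of_fintype]
  · exact congrArg (· / _)
      (Equiv.sum_comp (Equiv.addRight (QuotientAddGroup.mk z : A ⧸ per f)) fun q => f (Quotient.out q))
  · obtain ⟨a, ha⟩ := QuotientAddGroup.mk_out_eq_add (per f) (x + z)
    rw [QuotientAddGroup.mk'_apply, ← QuotientAddGroup.mk_add, ha, a.2]

theorem meanb_out {f : A → ℂ} {P : AddSubgroup A} (h : ∀ a ∈ P, ∀ x, f (x + a) = f x) (x : A) :
    f (Quotient.out (QuotientAddGroup.mk x : A ⧸ P)) = f x := by
  obtain ⟨a, ha⟩ := QuotientAddGroup.mk_out_eq_add P x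
  rw [ha, h a a.2]

/-- `mean_eq` for the surjection `A → A ⧸ per f × A ⧸ per g` -/
theorem mean_mul {f g : A → ℂ} (hf : FP f) (hg : FP g) (h : per f ⊔ per g = ⊤) :
    mean (fun x => f x * g x) = mean f * mean g := by
  have : (per f).FiniteIndex := hf
  have : (per g).FiniteIndex := hg
  have := Fintype.ofFinite (A ⧸ per f)
  have := Fintype.ofFinite (A ⧸ per g)
  have hsurj : Function.Surjective
      ((QuotientAddGroup.mk' (per f)).prod (QuotientAddGroup.mk' (per g))) := by
    rintro ⟨a, b⟩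
    obtain ⟨a, rfl⟩ := QuotientAddGroup.mk_surjective a
    obtain ⟨b, rfl⟩ := QuotientAddGroup.mk_surjective b
    have hab : b - a ∈ per f ⊔ per g := by rw [h]; trivial
    obtain ⟨u, hu, v, hv, huv⟩ := AddSubgroup.mem_sup.1 hab
    refine ⟨a + u, Prod.ext ?_ ?_⟩
    · simp only [AddMonoidHom.prod_apply, QuotientAddGroup.mk'_apply]
      exact QuotientAddGroup.mk_add_of_mem a hu
    · simp only [AddMonoidHom.prod_apply, QuotientAddGroup.mk'_apply]
      have : b = a + u + v := by rw [add_assoc, huv]; abel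
      rw [this]
      exact (QuotientAddGroup.mk_add_of_mem (a + u) hv).symm
  rw [mean_eq _ hsurj (fun y => f (Quotient.out y.1) * g (Quotient.out y.2)) (fun x => by
    simp only [AddMonoidHom.prod_apply, QuotientAddGroup.mk'_apply]
    rw [meanb_out (f := f) (P := per f) (fun a ha => ha), meanb_out (f := g) (P := per g) (fun a ha => ha)])]
  unfold mean
  rw [finsum_eq_sum_of_fintype, finsum_eq_sum_of_fintype, finsum_eq_sum_of_fintype, Fintype.sum_prod_type,
    Nat.card_prod, div_mul_div_comm, Finset.sum_mul_sum, AddSubgroup.index_eq_card, AddSubgroup.index_eq_card]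
  push_cast
  rfl

/-- `mean_eq` for `(ι → A) → (∀ i, A ⧸ per (f i))`, `Finset.prod_univ_sum` -/
theorem mean_pi {ι : Type} [Fintype ι] {f : ι → A → ℂ} (hf : ∀ i, FP (f i)) :
    mean (fun x : ι → A => ∏ i, f i (x i)) = ∏ i, mean (f i) := by
  have : ∀ i, (per (f i)).FiniteIndex := hf
  have := fun i => Fintype.ofFinite (A ⧸ per (f i))
  let π : (ι → A) →+ (∀ i, A ⧸ per (f i)) :=
    AddMonoidHom.pi fun i => (QuotientAddGroup.mk' (per (f i))).comp (Pi.evalAddMonoidHom (fun _ => A) i)
  have hπ : ∀ x i, π x i = QuotientAddGroup.mk (x i) := fun _ _ => rfl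
  have hsurj : Function.Surjective π := by
    intro y
    refine ⟨fun i => Quotient.out (y i), funext fun i => ?_⟩
    rw [hπ]
    exact QuotientAddGroup.out_eq' (y i)
  rw [mean_eq π hsurj (fun y => ∏ i, f i (Quotient.out (y i))) (fun x => by
    refine Finset.prod_congr rfl fun i _ => ?_
    rw [hπ, meanb_out (f := f i) (P := per (f i)) (fun a ha => ha)])]
  unfold mean
  simp only [finsum_eq_sum_of_fintype, AddSubgroup.index_eq_card]
  rw [Finset.prod_div_distrib, Finset.prod_univ_sum, Nat.card_pi]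
  push_cast
  simp only [Fintype.piFinset_univ]

/-- `mean_eq_quot` with `P = per f ⊓ Λ` on both sides; `Λ ⧸ P.addSubgroupOf Λ` injects into `A ⧸ P` with image the
classes in `Λ`; `AddSubgroup.relIndex_mul_index` -/
theorem mean_ite {f : A → ℂ} (hf : FP f) {Λ : AddSubgroup A} (hΛ : Λ.FiniteIndex) :
    mean (fun x => if x ∈ Λ then f x else 0) = mean (fun x : Λ => f x) / Λ.index := by
  have : (per f).FiniteIndex := hf
  set P : AddSubgroup A := per f ⊓ Λ with hP
  have : P.FiniteIndex := inferInstance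
  have := Fintype.ofFinite (A ⧸ P)
  have hper : ∀ a ∈ P, ∀ x, f (x + a) = f x := fun a ha => ha.1
  let π : A →+ A ⧸ P := QuotientAddGroup.mk' P
  have hπ : Function.Surjective π := QuotientAddGroup.mk'_surjective P
  have hker : π.ker ≤ Λ := by
    rw [QuotientAddGroup.ker_mk']; exact inf_le_right
  have hmem : ∀ x, π x ∈ Λ.map π ↔ x ∈ Λ := fun x => by
    rw [← AddSubgroup.mem_comap, AddSubgroup.comap_map_eq, sup_eq_left.2 hker]
  have := Fintype.ofFinite (Λ.map π)
  rw [mean_eq π hπ (fun q => if q ∈ Λ.map π then f (Quotient.out q) else 0) (fun x => by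
      simp only [hmem]
      rw [show π x = QuotientAddGroup.mk x from rfl, meanb_out hper]),
    mean_eq (π.addSubgroupMap Λ) (π.addSubgroupMap_surjective Λ) (fun q => f (Quotient.out (q : A ⧸ P)))
      (fun x => (meanb_out hper (x : A)).symm)]
  rw [finsum_eq_sum_of_fintype, finsum_eq_sum_of_fintype, ← Finset.sum_filter,
    Finset.sum_subtype (p := fun q => q ∈ Λ.map π) _ (by simp) (fun q => f (Quotient.out q)), div_div,
    ← AddSubgroup.index_map_eq Λ hπ hker, ← Nat.cast_mul, AddSubgroup.card_mul_index]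

/-- Let `f₀ = f · 1_{∉ Λ}` and `T` = representatives of the finite group `Z ⧸ (per f).addSubgroupOf Z`.  For `x ∉ Λ` the sum
`S x = ∑_{t ∈ T} f (x + t)` satisfies `S x = S (x + z₀) = c S x`, so `∑_t f₀ (x + t) = 0` for all `x`; take means
(`mean_shift`, `mean_add`): `|T| mean f₀ = 0`.  Then `mean_ite`. -/
theorem mean_restrict {f : A → ℂ} (hf : FP f) {Λ Z : AddSubgroup A} (hΛ : Λ.FiniteIndex) (hZ : Z ≤ Λ)
    (h : ∀ x, x ∉ Λ → ∃ z₀ ∈ Z, ∃ c : ℂ, c ≠ 1 ∧ ∀ z ∈ Z, f (x + z + z₀) = c * f (x + z)) :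
    mean f = mean (fun x : Λ => f x) / Λ.index := by
  have : (per f).FiniteIndex := hf
  set P : AddSubgroup A := per f ⊓ Λ with hP
  have hPf : P.FiniteIndex := inferInstance
  have := Fintype.ofFinite (A ⧸ P)
  have hmem : ∀ a ∈ P, ∀ x, x + a ∈ Λ ↔ x ∈ Λ := fun a ha x => AddSubgroup.add_mem_cancel_right Λ ha.2
  set f₀ : A → ℂ := fun x => if x ∈ Λ then 0 else f x with hf₀
  have hper₀ : ∀ a ∈ P, ∀ x, f₀ (x + a) = f₀ x := fun a ha x => by
    simp only [hf₀, hmem a ha x]; rw [ha.1 x]
  have hper₁ : ∀ a ∈ P, ∀ x, (fun x => if x ∈ Λ then f x else 0) (x + a) = (fun x => if x ∈ Λ then f x else 0) x :=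
    fun a ha x => by simp only [hmem a ha x]; rw [ha.1 x]
  have hsplit : f = fun x => (fun x => if x ∈ Λ then f x else 0) x + f₀ x := by
    funext x; by_cases hx : x ∈ Λ <;> simp [hf₀, hx]
  have h0 : mean f₀ = 0 := by
    let π : A →+ A ⧸ P := QuotientAddGroup.mk' P
    let g : A ⧸ P → ℂ := fun q => f₀ (Quotient.out q)
    have hg : ∀ x, g (π x) = f₀ x := fun x => meanb_out hper₀ x
    have := Fintype.ofFinite (Z.map π)
    have hin : ∀ q : A ⧸ P, ∑ t : Z.map π, g (q + t) = 0 := by
      intro q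
      obtain ⟨x, rfl⟩ := QuotientAddGroup.mk'_surjective P q
      change ∑ t : Z.map π, g (π x + t) = 0
      by_cases hx : x ∈ Λ
      · refine Finset.sum_eq_zero fun t _ => ?_
        obtain ⟨_, z, hz, rfl⟩ := t
        change g (π x + π z) = 0
        rw [← map_add, hg]
        simp [hf₀, Λ.add_mem hx (hZ hz)]
      · obtain ⟨z₀, hz₀, c, hc, hz⟩ := h x hx
        have h1 : ∑ t : Z.map π, g (π x + t) = c * ∑ t : Z.map π, g (π x + t) := by
          conv_lhs => rw [← Equiv.sum_comp (Equiv.addRight (⟨π z₀, z₀, hz₀, rfl⟩ : Z.map π))]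
          rw [Finset.mul_sum]
          refine Finset.sum_congr rfl fun t _ => ?_
          obtain ⟨_, z, hz', rfl⟩ := t
          change g (π x + (π z + π z₀)) = c * g (π x + π z)
          rw [← map_add, ← map_add, ← map_add, hg, hg, ← add_assoc]
          have e1 : x + z ∉ Λ := by rwa [AddSubgroup.add_mem_cancel_right Λ (hZ hz')]
          have e2 : x + z + z₀ ∉ Λ := by rwa [AddSubgroup.add_mem_cancel_right Λ (hZ hz₀)]
          simp only [hf₀, e1, e2, if_false]
          exact hz z hz'
        have h2 : (1 - c) * ∑ t : Z.map π, g (π x + t) = 0 := by rw [sub_mul, one_mul, ← h1, sub_self]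
        exact (mul_eq_zero.1 h2).resolve_left (sub_ne_zero.2 hc.symm)
    have hsum : (Fintype.card (Z.map π) : ℂ) * ∑ q, g q = 0 := by
      have : ∑ t : Z.map π, ∑ q : A ⧸ P, g (q + t) = 0 := by
        rw [Finset.sum_comm]; exact Finset.sum_eq_zero fun q _ => hin q
      have e : ∀ t : Z.map π, ∑ q : A ⧸ P, g (q + t) = ∑ q, g q := fun t =>
        Equiv.sum_comp (Equiv.addRight (t : A ⧸ P)) g
      simp only [e, Finset.sum_const, Finset.card_univ, nsmul_eq_mul] at this
      exact this
    have hc : (Fintype.card (Z.map π) : ℂ) ≠ 0 := Nat.cast_ne_zero.2 Fintype.card_ne_zero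
    rw [mean_eq_quot hPf hper₀, finsum_eq_sum_of_fintype, (mul_eq_zero.1 hsum).resolve_left hc, zero_div]
  rw [← mean_ite hf hΛ]
  conv_lhs => rw [hsplit]
  rw [mean_add (FP.of_le hPf hper₁) (FP.of_le hPf hper₀), h0, add_zero]

end Crest.Agent.R27.G
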