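import Crest.Agent.R27.G.Cls
import Crest.Agent.R27.G.Mean

/-! Row 27, block G: the quadratic Gauss sum is a class function (product formula for the Weil index).
Helper prefix `weil_`. -/

set_option autoImplicit false

namespace Crest.Agent.R27.G

open Crest.Agent.R17 Crest.NumberTheoryR.EisensteinField
open scoped ComplexConjugate Classical NumberField

variable {F : Type} [Field F] [NumberField F]

/-- the mean of `χ (l x²)` over the integers -/
noncomputable def mq (χ : F → ℂ) (l : F) : ℂ := mean fun x : 𝓞 F => χ (l * (x : F) ^ 2)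

/-- `(m)` has finite index (`Ideal.finiteQuotientOfFreeOfNeBot`) -/
theorem fi_span {m : 𝓞 F} (hm : m ≠ 0) : (Ideal.span {m}).toAddSubgroup.FiniteIndex := by
  have : Finite (𝓞 F ⧸ (Ideal.span {m}).toAddSubgroup) :=
    Ideal.finiteQuotientOfFreeOfNeBot (Ideal.span {m}) (by simpa using hm)
  exact AddSubgroup.finiteIndex_of_finite_quotient

/-- for `D l ∈ 𝓞 F` the multiples of `D` are periods -/
theorem fp_sq {χ : F → ℂ} (hχ : ∀ (x : F) (a : 𝓞 F), χ (x + a) = χ x) (l : F) :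
    FP fun x : 𝓞 F => χ (l * (x : F) ^ 2) := by
  obtain ⟨⟨a, D, hD⟩, h⟩ := IsLocalization.surj (nonZeroDivisors (𝓞 F)) l
  refine FP.of_le (fi_span (nonZeroDivisors.ne_zero hD)) fun p hp x => ?_
  obtain ⟨c, rfl⟩ := Ideal.mem_span_singleton'.1 hp
  rw [← hχ (l * (x : F) ^ 2) (a * (2 * x * c + c ^ 2 * D))]
  congr 1
  simp only [NumberField.RingOfIntegers.coe_eq_algebraMap, map_add, map_mul, map_pow, map_ofNat] at h ⊢
  rw [← h]
  ring

variable [Algebra K3 F]

/-! ### part a: Milgram's formula -/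

theorem weil_trace (z : K3) : ((Algebra.trace ℚ K3 z : ℚ) : ℂ) = ((2 * (sgK z).re : ℝ) : ℂ) := by
  have h1 := trace_eq_sum_embeddings ℂ (K := ℚ) (x := z)
  have hne : sgK ≠ (starRingEnd ℂ).toRatAlgHom.comp sgK := fun h => by
    have h2 : sg om = conj (sg om) := DFunLike.congr_fun h (algebraMap O K3 om)
    have h3 := congrArg Complex.im h2
    have h4 : 0 < Real.sqrt 3 := by positivity
    rw [Complex.conj_im, sg_om'] at h3
    simp only at h3
    linarith
  have h2 : (Finset.univ : Finset (K3 →ₐ[ℚ] ℂ)) = {sgK, (starRingEnd ℂ).toRatAlgHom.comp sgK} := by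
    refine (Finset.eq_univ_of_card _ ?_).symm
    rw [Finset.card_pair hne, AlgHom.card, IsCyclotomicExtension.finrank (n := 3) K3
      (Polynomial.cyclotomic.irreducible_rat (by norm_num)), Nat.totient_prime Nat.prime_three]
  rw [h2, Finset.sum_pair hne] at h1
  exact h1.trans (Complex.add_conj _)

/-- `Algebra.trace_trace`; on `K3` the trace is `2 re` (`trace_eq_sum_embeddings`, or coordinates `exists_coord`,
`eC_coord`), `sg_lam` -/
theorem eT_eq_eC (x : F) : eT x = eC (sg lam * sgK (Algebra.trace K3 F x)) := by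
  unfold eT eC
  rw [← Algebra.trace_trace (S := K3), weil_trace, sg_lam]
  have h3 : Real.sqrt 3 ≠ 0 := by positivity
  congr 3
  simp only [Complex.mul_im, Complex.mul_re, Complex.ofReal_re, Complex.ofReal_im, Complex.I_re, Complex.I_im]
  field_simp
  ring

theorem weil_eC_sum {ι : Type} (s : Finset ι) (f : ι → ℂ) : eC (∑ i ∈ s, f i) = ∏ i ∈ s, eC (f i) := by
  induction s using Finset.induction_on with
  | empty => simp
  | insert a s ha ih => rw [Finset.sum_insert ha, Finset.prod_insert ha, eC_add, ih]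

/-- `LinearMap.BilinForm.exists_orthogonal_basis` for `(x, y) ↦ Tr (μ x y)`; the diagonal entries `a i` are non-zero
(`traceForm_nondegenerate`); write `λ a i = α / β` and rescale the basis vector by `1 / (2 α)`, `c i = α β` -/
theorem exists_diag {μ : F} (hμ : μ ≠ 0) : ∃ (r : ℕ) (b : Module.Basis (Fin r) K3 F) (c : Fin r → O),
    (∀ i, c i ≠ 0) ∧ ∀ x y : Fin r → K3, eT (μ * (∑ i, x i • b i) * (∑ i, y i • b i)) =
      ∏ i, eC (sgK (x i) * sgK (y i) / (4 * sg (c i))) := by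
  have hT : ∀ x y : F, (Algebra.traceForm K3 F).compl₁₂ (LinearMap.mulLeft K3 μ) LinearMap.id x y =
      Algebra.trace K3 F (μ * x * y) := fun _ _ => rfl
  generalize (Algebra.traceForm K3 F).compl₁₂ (LinearMap.mulLeft K3 μ) LinearMap.id = B at hT
  have : Invertible (2 : K3) := invertibleOfNonzero two_ne_zero
  obtain ⟨w, hw⟩ := LinearMap.BilinForm.exists_orthogonal_basis (B := B)
    ⟨fun x y => by rw [RingHom.id_apply, hT, hT, mul_right_comm]⟩
  have ha : ∀ i, B (w i) (w i) ≠ 0 := fun i h0 => by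
    have h1 : B (w i) = 0 := w.ext fun j => by
      rcases eq_or_ne i j with rfl | hij
      · exact h0
      · exact hw hij
    have h2 := (traceForm_nondegenerate K3 F).1 (μ * w i) fun y =>
      (hT (w i) y).symm.trans (by rw [h1]; rfl)
    exact mul_ne_zero hμ (w.ne_zero i) h2
  have hl : algebraMap O K3 lam ≠ 0 := by
    rw [Ne, map_eq_zero_iff _ (IsFractionRing.injective O K3)]
    intro h
    have := lam_sq
    rw [h] at this
    norm_num at this
  have hab : ∀ i, ∃ α β : O, α ≠ 0 ∧ β ≠ 0 ∧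
      algebraMap O K3 lam * B (w i) (w i) * algebraMap O K3 β = algebraMap O K3 α := fun i => by
    obtain ⟨⟨α, β, hβ⟩, h⟩ := IsLocalization.surj (nonZeroDivisors O) (algebraMap O K3 lam * B (w i) (w i))
    have hβ0 := nonZeroDivisors.ne_zero hβ
    refine ⟨α, β, fun h0 => ?_, hβ0, h⟩
    simp only [h0, map_zero] at h
    exact mul_ne_zero (mul_ne_zero hl (ha i))
      ((map_ne_zero_iff _ (IsFractionRing.injective O K3)).2 hβ0) h
  choose α β hα hβ hab using hab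
  have hα' : ∀ i, (2 * algebraMap O K3 (α i))⁻¹ ≠ 0 := fun i =>
    inv_ne_zero (mul_ne_zero two_ne_zero ((map_ne_zero_iff _ (IsFractionRing.injective O K3)).2 (hα i)))
  refine ⟨_, w.isUnitSMul fun i => (hα' i).isUnit, fun i => α i * β i,
    fun i => mul_ne_zero (hα i) (hβ i), fun x y => ?_⟩
  have h1 : B (∑ i, x i • (2 * algebraMap O K3 (α i))⁻¹ • w i) (∑ i, y i • (2 * algebraMap O K3 (α i))⁻¹ • w i) =
      ∑ i, x i * y i * (2 * algebraMap O K3 (α i))⁻¹ ^ 2 * B (w i) (w i) := by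
    simp only [map_sum, map_smul, LinearMap.sum_apply, LinearMap.smul_apply, smul_eq_mul]
    refine Finset.sum_congr rfl fun j _ => ?_
    rw [Finset.sum_eq_single j (fun i _ hij => by rw [show B (w i) (w j) = 0 from hw hij]; ring) (by simp)]
    ring
  simp only [Module.Basis.isUnitSMul_apply]
  rw [eT_eq_eC, ← hT, h1, map_sum, Finset.mul_sum, weil_eC_sum]
  refine Finset.prod_congr rfl fun i _ => congrArg eC ?_
  have h2 : sg lam * sgK (B (w i) (w i)) * sg (β i) = sg (α i) := by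
    have := congrArg sgK (hab i)
    rwa [map_mul, map_mul] at this
  have h3 := sg_eq_zero.not.2 (hα i)
  have h4 := sg_eq_zero.not.2 (hβ i)
  have h5 : sgK (algebraMap O K3 (α i)) = sg (α i) := rfl
  simp only [map_mul, map_pow, map_inv₀, map_ofNat, h5]
  field_simp
  linear_combination (4 * sgK (x i) * sgK (y i)) * h2

/-- `R17.landsberg` with `a = c`, `c = -1`; `mean_eq` for `O → O ⧸ (4c)` -/
theorem mean_one_dim {c : O} (hc : c ≠ 0) :
    FP (fun y : O => eQ (y ^ 2) (4 * c)) ∧ ∃ t : ℝ, 0 < t ∧ mean (fun y : O => eQ (y ^ 2) (4 * c)) = t := by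
  have h4 : (4 * c : O) ≠ 0 := mul_ne_zero (by norm_num) hc
  have hP := fi_span (F := K3) h4
  have hper : ∀ a ∈ (Ideal.span {4 * c}).toAddSubgroup, ∀ x : O,
      eQ ((x + a) ^ 2) (4 * c) = eQ (x ^ 2) (4 * c) := fun a ha x => by
    obtain ⟨k, rfl⟩ := Ideal.mem_span_singleton'.1 ha
    exact eQ_congr ⟨2 * x * k + k ^ 2 * (4 * c), by ring⟩
  refine ⟨FP.of_le hP hper, 8 * Real.sqrt (nm c) / (Ideal.span {4 * c}).toAddSubgroup.index, ?_, ?_⟩
  · have h1 := nm_pos hc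
    have h2 := Nat.pos_of_ne_zero hP.index_ne_zero
    positivity
  · have h1 := landsberg hc (c := -1) (by norm_num)
    have h2 : (fun y : O => eQ (c * y ^ 2) (-1)) = fun _ => 1 :=
      funext fun y => eQ_of_dvd isUnit_one.neg.dvd
    have h3 : (Real.sqrt (nm c) : ℂ) ≠ 0 := by
      have := nm_pos hc
      exact Complex.ofReal_ne_zero.2 (by positivity)
    rw [h2, rsum_const (by norm_num), eq_div_iff (mul_ne_zero (by norm_num) h3)] at h1
    simp only [nm_neg, nm_one, Real.sqrt_one, Complex.ofReal_one, neg_mul, one_mul, neg_neg, div_one] at h1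
    rw [mean_eq_quot (f := fun y : O => eQ (y ^ 2) (4 * c)) hP hper]
    push_cast
    rw [h1]
    rfl

omit [Algebra K3 F] in
theorem weilb_den (s : Finset F) : ∃ N : ℕ, 0 < N ∧ ∀ x ∈ s, ∃ a : 𝓞 F, (N : F) * x = a := by
  obtain ⟨y, hy, h⟩ := exists_integral_multiples ℤ ℚ s
  refine ⟨y.natAbs, Int.natAbs_pos.2 hy, fun x hx => ?_⟩
  have h1 : IsIntegral ℤ ((y.natAbs : F) * x) := by
    rcases Int.natAbs_eq y with e | e
    · have := h x hx
      rw [e, zsmul_eq_mul, Int.cast_natCast] at this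
      exact this
    · have := (h x hx).neg
      rw [e, zsmul_eq_mul, Int.cast_neg, Int.cast_natCast, neg_mul, neg_neg] at this
      exact this
  exact ⟨⟨_, h1⟩, rfl⟩

/-- `N₀ b i ∈ 𝓞 F`.  `mean_restrict` with `Λ` = range of `φ y = ∑ y i • ν b i`, `Z` = image of `{y | ∀ i, 2 c i ∣ y i}`;
for `x = ν ∑ x i • b i ∉ Λ` some `x i ∉ O`, `eC_mul_eq_one_iff` gives `z₀ ∈ Z` with `eT (2 μ x z₀ / ν²) ≠ 1` (so `Λ`
contains `(D)` if `D μ / ν² ∈ 𝓞 F`: finite index); then `FP.comp`, `mean_comp` (`φ.rangeRestrict`), `mean_pi`, `mean_one_dim` -/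
theorem milgram {μ : F} (hμ : μ ≠ 0) : ∃ N₀ : ℕ, 0 < N₀ ∧ ∀ ν : 𝓞 F, ν ≠ 0 → (N₀ : 𝓞 F) ∣ ν →
    ∃ t : ℝ, 0 < t ∧ mq eT (μ / (ν : F) ^ 2) = t := by
  obtain ⟨r, b, c, hc, hd⟩ := exists_diag hμ
  obtain ⟨N₀, hN₀, hN⟩ := weilb_den (Finset.univ.image fun i => b i)
  refine ⟨N₀, hN₀, fun ν hν ⟨ν', hν'⟩ => ?_⟩
  have hνF : (ν : F) ≠ 0 := fun h => hν (NumberField.RingOfIntegers.coe_eq_zero_iff.1 h)
  have hβ : ∀ i, ∃ β : 𝓞 F, (β : F) = ν * b i := by
    intro i
    obtain ⟨a, ha⟩ := hN (b i) (Finset.mem_image_of_mem _ (Finset.mem_univ i))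
    refine ⟨ν' * a, ?_⟩
    rw [hν']
    simp only [map_mul, map_natCast]
    rw [← NumberField.RingOfIntegers.coe_eq_algebraMap, ← NumberField.RingOfIntegers.coe_eq_algebraMap, ← ha]
    ring
  choose β hβ using hβ
  let φ : (Fin r → O) →+ 𝓞 F :=
    { toFun := fun y => ∑ i, algebraMap O (𝓞 F) (y i) * β i
      map_zero' := by simp
      map_add' := fun y y' => by simp [add_mul, Finset.sum_add_distrib] }
  let co : F → Fin r → K3 := fun x => b.equivFun (x / ν)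
  have hco : ∀ x : F, x / ν = ∑ i, co x i • b i := fun x => (b.sum_equivFun _).symm
  have hφ : ∀ y, ((φ y : 𝓞 F) : F) / ν = ∑ i, algebraMap O K3 (y i) • b i := by
    intro y
    rw [div_eq_iff hνF, Finset.sum_mul]
    change algebraMap (𝓞 F) F (∑ i, algebraMap O (𝓞 F) (y i) * β i) = _
    rw [map_sum]
    refine Finset.sum_congr rfl fun i _ => ?_
    rw [map_mul, ← IsScalarTower.algebraMap_apply, IsScalarTower.algebraMap_apply O K3 F, Algebra.smul_def,
      show algebraMap (𝓞 F) F (β i) = ν * b i from hβ i]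
    ring
  have hcoφ : ∀ y, co (φ y : 𝓞 F) = fun i => algebraMap O K3 (y i) := by
    intro y
    change b.equivFun _ = _
    rw [hφ, ← b.equivFun_symm_apply, LinearEquiv.apply_symm_apply]
  have hP : ∀ x y : F, eT (μ / (ν : F) ^ 2 * x * y) =
      ∏ i, eC (sgK (co x i) * sgK (co y i) / (4 * sg (c i))) := by
    intro x y
    rw [← hd, ← hco, ← hco]
    congr 1
    field_simp
  have hsg : ∀ n : O, sgK (algebraMap O K3 n) = sg n := fun n => rfl
  have hc' : ∀ i, sg (c i) ≠ 0 := fun i h => hc i (sg_injective (by rw [h, map_zero]))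
  -- pairing with a basis direction
  have hkey : ∀ (x : F) (i : Fin r) (n : O), eT (μ / (ν : F) ^ 2 * x * (φ (Pi.single i (2 * c i * n)) : 𝓞 F)) =
      eC (sg n * sgK (co x i) / 2) := by
    intro x i n
    rw [hP, hcoφ, Finset.prod_eq_single i]
    · congr 1
      have := hc' i
      simp only [Pi.single_eq_same, hsg, map_mul, map_ofNat]
      field_simp
      ring
    · intro j _ hj
      simp [Pi.single_eq_of_ne hj]
    · simp
  have hcoadd : ∀ x y : F, co (x + y) = co x + co y := fun x y => by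
    simp only [co, add_div, map_add]
  have hco2 : ∀ x : F, co (2 * x) = co x + co x := fun x => by rw [two_mul, hcoadd]
  have hout : ∀ x : 𝓞 F, x ∉ φ.range → ∃ (i : Fin r) (n : O), eC (sg n * sgK (co x i)) ≠ 1 := by
    intro x hx
    by_contra hcon
    push Not at hcon
    have h1 : ∀ i, ∃ m : O, co x i = algebraMap O K3 m := by
      intro i
      obtain ⟨m, hm⟩ := eC_mul_eq_one_iff.1 (hcon i)
      exact ⟨m, sgK.toRingHom.injective hm⟩
    choose y hy using h1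
    refine hx ⟨y, NumberField.RingOfIntegers.coe_injective ?_⟩
    have h2 : ((φ y : 𝓞 F) : F) / ν = (x : F) / ν := by
      rw [hφ, hco]
      simp only [hy]
    exact (div_left_inj' hνF).1 h2
  have hkey2 : ∀ (x : F) (i : Fin r) (n : O),
      eT (μ / (ν : F) ^ 2 * (2 * x) * (φ (Pi.single i (2 * c i * n)) : 𝓞 F)) = eC (sg n * sgK (co x i)) := by
    intro x i n
    rw [hkey, hco2, Pi.add_apply, map_add]
    congr 1
    ring
  have hΛ : φ.range.FiniteIndex := by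
    obtain ⟨D, hD, hD'⟩ := weilb_den ({μ / (ν : F) ^ 2} : Finset F)
    obtain ⟨a, ha⟩ := hD' _ (Finset.mem_singleton_self _)
    have h1 := fi_span (F := F) (m := (D : 𝓞 F)) (Nat.cast_ne_zero.2 hD.ne')
    refine AddSubgroup.finiteIndex_of_le (H := (Ideal.span {(D : 𝓞 F)}).toAddSubgroup) fun x hx => ?_
    obtain ⟨e, rfl⟩ := Ideal.mem_span_singleton'.1 hx
    by_contra hcon
    obtain ⟨i, n, h2⟩ := hout _ hcon
    apply h2
    rw [← hkey2, ← eT_coe (a * (2 * e) * φ (Pi.single i (2 * c i * n)))]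
    congr 1
    simp only [map_mul, map_natCast, map_ofNat]
    rw [← NumberField.RingOfIntegers.coe_eq_algebraMap a, ← ha]
    ring
  have hf : FP fun x : 𝓞 F => eT (μ / (ν : F) ^ 2 * (x : F) ^ 2) :=
    fp_sq (fun x a => by rw [eT_add, eT_coe, mul_one]) _
  let Z₀ : AddSubgroup (Fin r → O) := AddSubgroup.pi Set.univ fun i => (Ideal.span {2 * c i}).toAddSubgroup
  have hres := mean_restrict hf (Z := Z₀.map φ) hΛ (AddSubgroup.map_le_range φ Z₀) (by
    intro x hx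
    obtain ⟨i, n, h2⟩ := hout x hx
    refine ⟨φ (Pi.single i (2 * c i * n)), ⟨_, fun j _ => ?_, rfl⟩, _, h2, ?_⟩
    · by_cases hj : j = i
      · subst hj
        rw [Pi.single_eq_same]
        exact Ideal.mul_mem_right _ _ (Ideal.mem_span_singleton_self _)
      · rw [Pi.single_eq_of_ne hj]
        exact (Ideal.span {2 * c j}).zero_mem
    · rintro _ ⟨y, hy, rfl⟩
      obtain ⟨e, he⟩ := Ideal.mem_span_singleton'.1 (hy i (Set.mem_univ i))
      have e1 : μ / (ν : F) ^ 2 * ((x + φ y + φ (Pi.single i (2 * c i * n)) : 𝓞 F) : F) ^ 2 =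
          μ / (ν : F) ^ 2 * (2 * (x : F)) * (φ (Pi.single i (2 * c i * n)) : 𝓞 F) +
          (μ / (ν : F) ^ 2 * (2 * (φ y : 𝓞 F)) * (φ (Pi.single i (2 * c i * n)) : 𝓞 F) +
          (μ / (ν : F) ^ 2 * (φ (Pi.single i (2 * c i * n)) : 𝓞 F) * (φ (Pi.single i (2 * c i * n)) : 𝓞 F) +
            μ / (ν : F) ^ 2 * ((x + φ y : 𝓞 F) : F) ^ 2)) := by
        simp only [map_add]
        ring
      rw [e1, eT_add, eT_add, eT_add, hkey2, hkey2, hkey, hcoφ, hcoφ]
      simp only [hsg, Pi.single_eq_same]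
      rw [← map_mul, eC_sg, show sg n * sg (2 * c i * n) / 2 = sg (n * c i * n) by
        simp only [map_mul, map_ofNat]; ring, eC_sg, one_mul, one_mul])
  have hcomp := mean_comp φ.rangeRestrict (FP.comp φ.range.subtype hf) fun x => by
    obtain ⟨y, hy⟩ := φ.rangeRestrict_surjective x
    exact ⟨y, by rw [hy, sub_self]; exact zero_mem _⟩
  choose h1 t ht0 ht using fun i => mean_one_dim (hc i)
  have hprod : (fun y : Fin r → O => eT (μ / (ν : F) ^ 2 * ((φ y : 𝓞 F) : F) ^ 2)) =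
      fun y => ∏ i, eQ (y i ^ 2) (4 * c i) := by
    funext y
    rw [sq ((φ y : 𝓞 F) : F), ← mul_assoc, hP, hcoφ]
    refine Finset.prod_congr rfl fun i _ => ?_
    simp only [hsg, eQ, map_mul, map_ofNat, sq]
  have hidx : (0 : ℝ) < φ.range.index := Nat.cast_pos.2 (Nat.pos_of_ne_zero hΛ.index_ne_zero)
  refine ⟨(∏ i, t i) / φ.range.index, div_pos (Finset.prod_pos fun i _ => ht0 i) hidx, ?_⟩
  have hfin : mean (fun x : φ.range => eT (μ / (ν : F) ^ 2 * ((x : 𝓞 F) : F) ^ 2)) = ∏ i, (t i : ℂ) := by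
    refine hcomp.symm.trans ?_
    change mean (fun y : Fin r → O => eT (μ / (ν : F) ^ 2 * ((φ y : 𝓞 F) : F) ^ 2)) = _
    rw [hprod, mean_pi (f := fun i y => eQ (y ^ 2) (4 * c i)) h1]
    exact Finset.prod_congr rfl fun i _ => ht i
  rw [mq, hres, hfin]
  push_cast
  rfl

namespace Lv

variable (v : Lv F)

/-! ### part b: the two local parts -/

/-- the part of `eT` at the primes over `M` -/
noncomputable def psiS (x : F) : ℂ := eT (x - v.lp x)

theorem eT_eq (x : F) : eT x = v.psi x * v.psiS x := by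
  rw [psi, psiS, ← eT_add, add_sub_cancel]

theorem psiS_add (x y : F) : v.psiS (x + y) = v.psiS x * v.psiS y := by
  have h0 : v.psi (x + y) ≠ 0 := norm_ne_zero_iff.1 (by rw [v.norm_psi]; exact one_ne_zero)
  refine mul_left_cancel₀ h0 ?_
  rw [← v.eT_eq, eT_add, v.eT_eq x, v.eT_eq y, v.psi_add]
  ring

theorem psiS_L {x : F} (h : x ∈ v.L) : v.psiS x = 1 := by
  have h0 : v.psi x ≠ 0 := norm_ne_zero_iff.1 (by rw [v.norm_psi]; exact one_ne_zero)
  refine mul_left_cancel₀ h0 ?_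
  rw [← v.eT_eq, mul_one, v.psi_L h]

theorem weil_c_split (x : F) :
    ∃ (k t : ℕ) (a : 𝓞 F), t.Coprime v.M ∧ (v.M : F) ^ k * (t * x) = a := by
  obtain ⟨m, a, hm, ha⟩ := exists_nat_mul x
  obtain ⟨m₁, t, k, rfl, ⟨c, hc⟩, ht⟩ := v.nat_split hm
  refine ⟨k, t, (c : 𝓞 F) * a, ht, ?_⟩
  have hc' : (v.M : F) ^ k = m₁ * c := by exact_mod_cast congrArg (Nat.cast : ℕ → F) hc
  simp only [map_mul, map_natCast]
  rw [← NumberField.RingOfIntegers.coe_eq_algebraMap, ← ha, hc']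
  push_cast
  ring

theorem exists_pow_mem_L (x : F) : ∃ k : ℕ, (v.M : F) ^ k * x ∈ v.L := by
  obtain ⟨k, t, a, ht, h⟩ := v.weil_c_split x
  exact ⟨k, t, a, ht, by rw [← h]; ring⟩

theorem exists_nat_mem_R (x : F) : ∃ t : ℕ, t.Coprime v.M ∧ (t : F) * x ∈ v.R := by
  obtain ⟨k, t, a, ht, h⟩ := v.weil_c_split x
  exact ⟨t, ht, k, a, h⟩

omit [NumberField F] [Algebra K3 F] in
theorem weil_c_per0 {χ : F → ℂ} (hχ : ∀ x y, χ (x + y) = χ x * χ y) {l : F} {D y : 𝓞 F}
    (h : ∀ a : 𝓞 F, χ (D * l * a) = 1) : D * y ∈ per fun x : 𝓞 F => χ (l * (x : F) ^ 2) := by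
  intro x
  have e : l * ((x + D * y : 𝓞 F) : F) ^ 2 =
      l * (x : F) ^ 2 + D * l * ((2 * x * y + D * y ^ 2 : 𝓞 F) : F) := by
    simp only [map_add, map_mul, map_pow, map_ofNat]
    ring
  simp only [e, hχ, h, mul_one]

theorem weil_c_per {l : F} {k : ℕ} (hk : (v.M : F) ^ k * l ∈ v.L) (y : 𝓞 F) :
    (v.M : 𝓞 F) ^ k * y ∈ per fun x : 𝓞 F => v.psiS (l * (x : F) ^ 2) :=
  weil_c_per0 v.psiS_add fun a => by
    simpa only [map_pow, map_natCast] using v.psiS_L (mul_mem hk (v.coe_mem_L a))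

theorem weil_c_fp (l : F) : FP fun x : 𝓞 F => v.psiS (l * (x : F) ^ 2) :=
  fp_sq (fun x a => by rw [v.psiS_add, v.psiS_L (v.coe_mem_L a), mul_one]) l

/-- `mean_mul`: the multiples of `t` resp. `M^k` are periods -/
theorem mq_eT (l : F) : mq eT l = mq v.psi l * mq v.psiS l := by
  obtain ⟨k, hk⟩ := v.exists_pow_mem_L l
  obtain ⟨t, ht, hR⟩ := v.exists_nat_mem_R l
  obtain ⟨p, q, hpq⟩ : IsCoprime (t : 𝓞 F) ((v.M : 𝓞 F) ^ k) := ht.cast.pow_right
  simp only [mq, v.eT_eq]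
  refine mean_mul (fp_sq (fun x a => by rw [v.psi_add, v.psi_R (v.coe_mem_R a), mul_one]) l)
    (v.weil_c_fp l) (eq_top_iff.2 fun y _ => AddSubgroup.mem_sup.2
      ⟨(t : 𝓞 F) * (p * y), ?_, (v.M : 𝓞 F) ^ k * (q * y), v.weil_c_per hk _, by linear_combination y * hpq⟩)
  exact weil_c_per0 v.psi_add fun a => by
    simpa only [map_natCast] using v.psi_R (mul_mem hR (v.coe_mem_R a))

/-- Hensel.  `M = 4 m`, `2 ∣ m`.  Induction on `j`: `u = w² + 4 m^(j+1) e`, `w ∈ 𝓞 F` coprime to `M`, `e ∈ L`; take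
`d ∈ 𝓞 F` with `e / w - d ∈ M L` (`inv_mem_L`; if `t l = a`, `t t' ≡ 1 (M)` then `l - t' a ∈ M L`) and
`w' = w + 2 m^(j+1) d`.  Finally `M ∣ m³`. -/
theorem hensel {u : F} (hu : v.U u) (k : ℕ) :
    ∃ (w : 𝓞 F) (l : F), IsCoprime w (v.M : 𝓞 F) ∧ l ∈ v.L ∧ u = (w : F) ^ 2 + (v.M : F) ^ k * l := by
  obtain ⟨s, hs⟩ : 8 ∣ v.M := (by norm_num : 8 ∣ 72).trans v.dvd
  have hM : (v.M : F) = 8 * s := by rw [hs]; push_cast; rfl
  have hM' : (v.M : 𝓞 F) = 8 * s := by rw [hs]; push_cast; rfl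
  have hc : ∀ {w : 𝓞 F}, IsCoprime w (2 * s) → IsCoprime w (v.M : 𝓞 F) := fun {w} h =>
    (h.pow_right (n := 3)).of_isCoprime_of_dvd_right ⟨(s : 𝓞 F) ^ 2, by rw [hM']; ring⟩
  have key : ∀ j : ℕ, ∃ (w : 𝓞 F) (e : F), IsCoprime w (2 * s) ∧ e ∈ v.L ∧
      u = (w : F) ^ 2 + 4 * (2 * s) ^ (j + 1) * e := by
    intro j
    induction j with
    | zero =>
      obtain ⟨l, hl, rfl⟩ := hu
      exact ⟨1, l, isCoprime_one_left, hl, by rw [hM]; simp only [map_one]; ring⟩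
    | succ j ih =>
      obtain ⟨w, e, hw, he, h⟩ := ih
      obtain ⟨t, a, ht, ha⟩ := mul_mem he (v.inv_mem_L (hc hw))
      obtain ⟨p, q, hpq⟩ : IsCoprime (t : 𝓞 F) (v.M : 𝓞 F) := ht.cast
      have h1 := congrArg (fun z : 𝓞 F => (z : F)) hpq
      simp only [map_add, map_mul, map_natCast, map_one, hM] at h1
      have h2 : (t : F) * e = a * w := by
        rw [← ha, mul_assoc, inv_mul_cancel_right₀ (v.loca_ne_zero' (hc hw))]
      refine ⟨w + 2 * s * (2 * (2 * s) ^ j * (p * a)), 4 * q * e - (2 * s) ^ j * ((p : F) * a) ^ 2,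
        hw.add_mul_left_left _, sub_mem (mul_mem (mul_mem (ofNat_mem _ 4) (v.coe_mem_L q)) he)
          (mul_mem (pow_mem (mul_mem (ofNat_mem _ 2) (natCast_mem _ s)) j)
            (pow_mem (mul_mem (v.coe_mem_L p) (v.coe_mem_L a)) 2)), ?_⟩
      simp only [map_add, map_mul, map_pow, map_natCast, map_ofNat]
      simp only [← NumberField.RingOfIntegers.coe_eq_algebraMap] at h1 ⊢
      rw [h]
      linear_combination (-4 * (2 * (s : F)) ^ (j + 1) * e) * h1 + 4 * (2 * (s : F)) ^ (j + 1) * p * h2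
  obtain ⟨w, e, hw, he, h⟩ := key (3 * k)
  refine ⟨w, 8 * s * ((s : F) ^ 2) ^ k * e, hc hw, mul_mem (mul_mem (mul_mem (ofNat_mem _ 8) (natCast_mem _ s))
    (pow_mem (pow_mem (natCast_mem _ s) 2) k)) he, ?_⟩
  rw [h, hM, pow_succ _ (3 * k), pow_mul, show (2 * (s : F)) ^ 3 = 8 * s * s ^ 2 by ring, mul_pow]
  ring

/-- `mean_comp` for multiplication by `w` -/
theorem mq_psiS_U (l : F) {u : F} (hu : v.U u) : mq v.psiS (l * u) = mq v.psiS l := by
  obtain ⟨k, hk⟩ := v.exists_pow_mem_L l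
  obtain ⟨w, e, hw, he, rfl⟩ := v.hensel hu k
  obtain ⟨p, q, hpq⟩ := hw.pow_right (n := k)
  rw [mq, mq, ← mean_comp (AddMonoidHom.mulLeft w) (v.weil_c_fp l) fun x => ⟨p * x, by
    have e1 : AddMonoidHom.mulLeft w (p * x) - x = (v.M : 𝓞 F) ^ k * (-(q * x)) := by
      rw [AddMonoidHom.coe_mulLeft]
      linear_combination x * hpq
    rw [e1]
    exact v.weil_c_per hk _⟩]
  congr 1
  funext x
  have e1 : l * ((w : F) ^ 2 + (v.M : F) ^ k * e) * (x : F) ^ 2 =
      l * ((w * x : 𝓞 F) : F) ^ 2 + (v.M : F) ^ k * l * (e * (x : F) ^ 2) := by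
    simp only [map_mul]
    ring
  rw [e1, v.psiS_add, v.psiS_L (mul_mem hk (mul_mem he (pow_mem (v.coe_mem_L x) 2))), mul_one]
  rfl

/-- the quadratic Gauss sum -/
noncomputable def Gq2 (n : v.R) : ℂ := ∑ᶠ y : v.R ⧸ Ideal.span {n}, v.psi (((Quotient.out y : v.R) : F) ^ 2 / n)

theorem weild_psi_R {x r : F} (hr : r ∈ v.R) : v.psi (x + r) = v.psi x := by
  rw [v.psi_add, v.psi_R hr, mul_one]

theorem weild_two_inv : (2 : F)⁻¹ ∈ v.R := by
  obtain ⟨c, hc⟩ : 2 ∣ v.M := (by norm_num : 2 ∣ 72).trans v.dvd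
  refine ⟨1, c, ?_⟩
  rw [pow_one, hc]
  simp only [map_natCast]
  push_cast
  field_simp

/-- `mean_restrict` with `Λ = idl (up ν)`, `Z = idl (up ν * n)` (`psi_dual`: for `x ∉ Λ` some `y ∈ 𝓞 F` has
`psi (2 M^k x y / ν) ≠ 1`, `z₀ = ν n M^k y`), then `mean_eq` for the surjection `Λ → R ⧸ (n)`, `x ↦ x / ν`
(`exists_lift` modulo `ν n`) -/
theorem mq_psi {n : v.R} (hn : n ≠ 0) {ν : 𝓞 F} (hν : ν ≠ 0) :
    ∃ t : ℝ, 0 < t ∧ mq v.psi ((n : F)⁻¹ / (ν : F) ^ 2) = t * v.Gq2 n := by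
  have hn0 : (n : F) ≠ 0 := fun h => hn (Subtype.ext h)
  have hν0 : (ν : F) ≠ 0 := fun h => hν (NumberField.RingOfIntegers.ext (by simpa using h))
  have hνR : v.up ν ≠ 0 := fun h => hν0 (congrArg (fun x : v.R => (x : F)) h)
  have hf : FP fun x : 𝓞 F => v.psi ((n : F)⁻¹ / (ν : F) ^ 2 * (x : F) ^ 2) :=
    fp_sq (fun x a => v.weild_psi_R (v.coe_mem_R a)) _
  have hΛ : (v.idl (v.up ν)).toAddSubgroup.FiniteIndex := by
    have := fi_span hν
    refine AddSubgroup.finiteIndex_of_le (H := (Ideal.span {ν}).toAddSubgroup) ?_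
    intro x hx
    obtain ⟨c, rfl⟩ := Ideal.mem_span_singleton.1 hx
    exact v.mem_idl.2 ⟨v.up c, map_mul _ _ _⟩
  have hdiv : ∀ x : 𝓞 F, x ∈ v.idl (v.up ν) ↔ (x : F) / ν ∈ v.R := by
    intro x
    rw [v.mem_idl]
    constructor
    · rintro ⟨c, hc⟩
      have h1 : (x : F) = ν * c := congrArg (fun x : v.R => (x : F)) hc
      rw [h1, mul_div_cancel_left₀ _ hν0]
      exact c.2
    · intro h
      refine ⟨⟨_, h⟩, Subtype.ext ?_⟩
      change (x : F) = ν * ((x : F) / ν)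
      field_simp
  obtain ⟨k, a, ha⟩ := n.2
  have hMk : ((v.M : F) ^ k)⁻¹ ∈ v.R := by rw [← inv_pow]; exact pow_mem v.inv_M_mem k
  have hMk0 : (v.M : F) ^ k ≠ 0 := pow_ne_zero k v.M_ne
  unfold mq
  rw [mean_restrict hf hΛ (Z := (v.idl (v.up ν * n)).toAddSubgroup)
    (fun x hx => v.mem_idl.2 ((dvd_mul_right _ _).trans (v.mem_idl.1 hx))) ?_]
  · have := v.finite_quot hn
    let π : (v.idl (v.up ν)).toAddSubgroup →+ v.R ⧸ Ideal.span {n} :=
      { toFun := fun x => Ideal.Quotient.mk _ ⟨((x : 𝓞 F) : F) / ν, (hdiv x).1 x.2⟩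
        map_zero' := by
          rw [← map_zero (Ideal.Quotient.mk (Ideal.span {n}))]
          congr 1
          exact Subtype.ext (by simp)
        map_add' := fun x y => by
          rw [← map_add]
          congr 1
          refine Subtype.ext ?_
          simp [add_div] }
    have hπ : Function.Surjective π := by
      intro q
      obtain ⟨u, rfl⟩ := Ideal.Quotient.mk_surjective q
      obtain ⟨b, c, hc⟩ := v.exists_lift (mul_ne_zero hνR hn) (v.up ν * u)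
      have h1 : (b : F) - ν * u = ν * n * c := congrArg (fun x : v.R => (x : F)) hc
      have h2 : (b : F) / ν = u + n * c := by field_simp; linear_combination h1
      refine ⟨⟨b, (hdiv b).2 (h2 ▸ add_mem u.2 (mul_mem n.2 c.2))⟩, ?_⟩
      refine Ideal.Quotient.eq.2 (Ideal.mem_span_singleton.2 ⟨c, Subtype.ext ?_⟩)
      change (b : F) / ν - u = n * c
      rw [h2]; ring
    rw [mean_eq π hπ (fun y => v.psi (((Quotient.out y : v.R) : F) ^ 2 / n)) (fun x => ?_)]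
    · have h1 : 0 < Nat.card (v.R ⧸ Ideal.span {n}) := Nat.card_pos
      have h2 : 0 < (v.idl (v.up ν)).toAddSubgroup.index := Nat.pos_of_ne_zero hΛ.index_ne_zero
      refine ⟨((Nat.card (v.R ⧸ Ideal.span {n}) : ℝ) * (v.idl (v.up ν)).toAddSubgroup.index)⁻¹, by positivity, ?_⟩
      unfold Gq2
      push_cast
      rw [div_div, div_eq_inv_mul]
    · obtain ⟨c, hc⟩ := Ideal.mem_span_singleton.1 (Ideal.Quotient.eq.1 (Ideal.Quotient.mk_out (π x)))
      have h1 : ((Quotient.out (π x) : v.R) : F) - ((x : 𝓞 F) : F) / ν = n * c :=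
        congrArg (fun x : v.R => (x : F)) hc
      have h2 : ((Quotient.out (π x) : v.R) : F) ^ 2 / n =
          (n : F)⁻¹ / (ν : F) ^ 2 * ((x : 𝓞 F) : F) ^ 2 + (2 * (((x : 𝓞 F) : F) / ν) * c + n * c ^ 2) := by
        rw [eq_add_of_sub_eq h1]; field_simp; ring
      rw [h2, v.weild_psi_R]
      exact add_mem (mul_mem (mul_mem (ofNat_mem _ 2) ((hdiv x).1 x.2)) c.2) (mul_mem n.2 (pow_mem c.2 2))
  · intro x hx
    have h1 : 2 * (v.M : F) ^ k * ((x : F) / ν) ∉ v.R := fun h => by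
      refine hx ((hdiv x).2 ?_)
      have h2 := mul_mem hMk (mul_mem v.weild_two_inv h)
      convert h2 using 1
      field_simp
    obtain ⟨y, hy⟩ : ∃ y : 𝓞 F, v.psi (2 * (v.M : F) ^ k * ((x : F) / ν) * y) ≠ 1 := by
      by_contra hcon
      push Not at hcon
      exact h1 (v.psi_dual hcon)
    refine ⟨ν * a * y, v.mem_idl.2 ⟨(v.M : v.R) ^ k * v.up y, Subtype.ext ?_⟩, _, hy, fun z hz => ?_⟩
    · change ((ν * a * y : 𝓞 F) : F) = ν * n * ((((v.M : v.R) ^ k : v.R) : F) * y)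
      simp only [map_mul, SubmonoidClass.coe_pow, SubringClass.coe_natCast]
      rw [← NumberField.RingOfIntegers.coe_eq_algebraMap a, ← ha]
      ring
    · obtain ⟨c, hc⟩ := v.mem_idl.1 hz
      have h2 : (z : F) = ν * n * c := congrArg (fun x : v.R => (x : F)) hc
      have h3 : (n : F)⁻¹ / (ν : F) ^ 2 * ((x + z + ν * a * y : 𝓞 F) : F) ^ 2 =
          (2 * (v.M : F) ^ k * ((x : F) / ν) * y + (n : F)⁻¹ / (ν : F) ^ 2 * ((x + z : 𝓞 F) : F) ^ 2) +
            (2 * (v.M : F) ^ k * y * (n * c) + n * ((v.M : F) ^ k * y) ^ 2) := by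
        simp only [map_mul, map_add]
        rw [← NumberField.RingOfIntegers.coe_eq_algebraMap a, ← ha, ← NumberField.RingOfIntegers.coe_eq_algebraMap z, h2,
          ← NumberField.RingOfIntegers.coe_eq_algebraMap ν]
        field_simp
        ring
      have hM : (v.M : F) ^ k ∈ v.R := pow_mem (natCast_mem _ _) k
      rw [h3, v.weild_psi_R, v.psi_add]
      exact add_mem (mul_mem (mul_mem (mul_mem (ofNat_mem _ 2) hM) (v.coe_mem_R y)) (mul_mem n.2 c.2))
        (mul_mem n.2 (pow_mem (mul_mem hM (v.coe_mem_R y)) 2))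

/-- `n' = n z⁶ u`, `z³ = α / β`, `ν = N₀ N₀' α`, `ν' = N₀ N₀' β`; both `t G(n) s` and `t' G(n') s` are positive -/
theorem Gq2_cl {n n' : v.R} (hn : n ≠ 0) (hn' : n' ≠ 0) (h : v.cl n = v.cl n') :
    ∃ t : ℝ, 0 < t ∧ v.Gq2 n' = t * v.Gq2 n := by
  have hn0 : (n : F) ≠ 0 := fun h => hn (Subtype.ext h)
  have hn0' : (n' : F) ≠ 0 := fun h => hn' (Subtype.ext h)
  obtain ⟨z, u, hz, hu, e⟩ := (v.cl_eq_iff hn0 hn0').1 h
  obtain ⟨m, α, hm, hα⟩ := exists_nat_mul (z ^ 3)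
  obtain ⟨N, hN, H⟩ := milgram (inv_ne_zero hn0)
  obtain ⟨N', hN', H'⟩ := milgram (inv_ne_zero hn0')
  have hm0 : (m : F) ≠ 0 := Nat.cast_ne_zero.2 hm.ne'
  have hα0 : α ≠ 0 := by
    rintro rfl
    exact mul_ne_zero hm0 (pow_ne_zero 3 hz) (by simpa using hα)
  have hNN : (N : 𝓞 F) * N' ≠ 0 := mul_ne_zero (Nat.cast_ne_zero.2 hN.ne') (Nat.cast_ne_zero.2 hN'.ne')
  have hν : (N : 𝓞 F) * N' * α ≠ 0 := mul_ne_zero hNN hα0
  have hν' : (N : 𝓞 F) * N' * m ≠ 0 := mul_ne_zero hNN (Nat.cast_ne_zero.2 hm.ne')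
  obtain ⟨s, hs, es⟩ := H _ hν ((dvd_mul_right _ _).trans (dvd_mul_right _ _))
  obtain ⟨s', hs', es'⟩ := H' _ hν' ((dvd_mul_left _ _).trans (dvd_mul_right _ _))
  obtain ⟨t, ht, et⟩ := v.mq_psi hn hν
  obtain ⟨t', ht', et'⟩ := v.mq_psi hn' hν'
  have hl : (n' : F)⁻¹ / (((N : 𝓞 F) * N' * m : 𝓞 F) : F) ^ 2 =
      (n : F)⁻¹ / (((N : 𝓞 F) * N' * α : 𝓞 F) : F) ^ 2 * u⁻¹ := by
    have h1 : (N : F) ≠ 0 := Nat.cast_ne_zero.2 hN.ne'
    have h2 : (N' : F) ≠ 0 := Nat.cast_ne_zero.2 hN'.ne'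
    have h3 := v.U_ne_zero hu
    simp only [map_mul, map_natCast]
    rw [e, ← NumberField.RingOfIntegers.coe_eq_algebraMap α, ← hα]
    field_simp
  rw [v.mq_eT, et] at es
  rw [v.mq_eT, et', hl, v.mq_psiS_U _ (v.U_inv hu)] at es'
  refine ⟨s' * t / (t' * s), by positivity, ?_⟩
  have h1 : (s : ℂ) ≠ 0 := by exact_mod_cast hs.ne'
  have h2 : (t' : ℂ) ≠ 0 := by exact_mod_cast ht'.ne'
  push_cast
  field_simp
  rw [← es, ← es']
  ring

end Lv

end Crest.Agent.R27.G
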