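import Crest.Agent.R27.Model
import Crest.Agent.R27.G.Jac
import Crest.Agent.R27.G.Weil

/-! Row 27, block G: the statements `StLv`, `StSec`, `StAr`. -/

set_option autoImplicit false

namespace Crest.Agent.R27

open Crest.Agent.R17 Crest.NumberTheoryR.EisensteinField G
open scoped ComplexConjugate Classical NumberField

section
variable {F : Type} [Field F] [NumberField F] [Algebra K3 F]

theorem inst_dual : ∃ D : ℕ, 0 < D ∧ ∀ x : F, (∀ y : 𝓞 F, ∃ n : ℤ, Algebra.trace ℚ F (x * y) = n) →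
    ∃ a : 𝓞 F, (D : F) * x = a := by
  let b := NumberField.integralBasis F
  let d := (Algebra.traceForm ℚ F).dualBasis (traceForm_nondegenerate ℚ F) b
  choose m a hm ha using fun i => Lv.exists_nat_mul (d i)
  refine ⟨∏ i, m i, Finset.prod_pos fun i _ => hm i, fun x hx => ?_⟩
  choose n hn using fun i => hx (NumberField.RingOfIntegers.basis F i)
  refine ⟨∑ i, (n i : 𝓞 F) * (∏ j ∈ Finset.univ.erase i, (m j : 𝓞 F)) * a i, ?_⟩
  conv_lhs => rw [← d.sum_repr x]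
  rw [Finset.mul_sum]
  simp only [map_sum, map_mul, map_intCast, map_prod, map_natCast]
  refine Finset.sum_congr rfl fun i _ => ?_
  rw [LinearMap.BilinForm.dualBasis_repr_apply, Algebra.traceForm_apply, NumberField.integralBasis_apply,
    ← NumberField.RingOfIntegers.coe_eq_algebraMap, hn i, ← NumberField.RingOfIntegers.coe_eq_algebraMap, ← ha i,
    ← Finset.prod_erase_mul _ _ (Finset.mem_univ i), Rat.smul_def]
  push_cast
  ring

theorem inst_gen : ∃ D : ℕ, 0 < D ∧ ∀ I : Ideal (𝓞 F), I ≠ ⊥ →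
    ∃ (J : Ideal (𝓞 F)) (a : 𝓞 F), (D : 𝓞 F) ∈ J ∧ I * J = Ideal.span {a} := by
  choose J hJ using ClassGroup.mk0_surjective (R := 𝓞 F)
  refine ⟨∏ C, Ideal.absNorm (J C : Ideal (𝓞 F)), Finset.prod_pos fun C _ =>
    Nat.pos_of_ne_zero (Ideal.absNorm_ne_zero_of_nonZeroDivisors _), fun I hI => ?_⟩
  have hI' : I ∈ nonZeroDivisors (Ideal (𝓞 F)) := mem_nonZeroDivisors_iff_ne_zero.2 hI
  obtain ⟨x, -, hx⟩ := (ClassGroup.mk0_eq_mk0_inv_iff (I := ⟨I, hI'⟩) (J := J (ClassGroup.mk0 ⟨I, hI'⟩)⁻¹)).1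
    (by rw [hJ, inv_inv])
  refine ⟨_, x, ?_, hx⟩
  rw [← Finset.prod_erase_mul _ _ (Finset.mem_univ (ClassGroup.mk0 ⟨I, hI'⟩)⁻¹), Nat.cast_mul]
  exact Ideal.mul_mem_left _ _ (Ideal.absNorm_mem _)

theorem inst_split (J : Ideal (𝓞 F)) (hJ : J ≠ ⊥) :
    ∃ (J₁ J₆ : Ideal (𝓞 F)) (m : ℕ), J = J₁ * J₆ ∧ Cp J₁ 6 ∧ (6 : 𝓞 F) ^ m ∈ J₆ := by
  induction J using UniqueFactorizationMonoid.induction_on_prime with
  | h₁ => exact absurd rfl hJ
  | h₂ J hu =>
    rw [Ideal.isUnit_iff.1 hu]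
    exact ⟨⊤, ⊤, 0, by simp, cp_iff.2 ⟨0, trivial⟩, trivial⟩
  | h₃ J P hJ0 hP ih =>
    obtain ⟨J₁, J₆, m, rfl, h1, h6⟩ := ih hJ0
    by_cases h : (6 : 𝓞 F) ∈ P
    · exact ⟨J₁, P * J₆, m + 1, by ring, h1, by rw [pow_succ']; exact Ideal.mul_mem_mul h h6⟩
    · refine ⟨P * J₁, J₆, m, by ring, cp_mul_left.2 ⟨(cp_max ?_).2 h, h1⟩, h6⟩
      exact (Ideal.isPrime_of_prime hP).isMaximal hP.ne_zero

end

theorem stLv (h : StRec) : StLv := by
  intro F _ _ _ m hm
  obtain ⟨k, -, hk⟩ := h F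
  obtain ⟨D₁, h₁, hD₁⟩ := inst_dual (F := F)
  obtain ⟨D₂, h₂, hD₂⟩ := inst_gen (F := F)
  refine ⟨⟨72 * 6 ^ k * D₁ * D₂ * m, by positivity, ⟨6 ^ k * D₁ * D₂ * m, by ring⟩, fun x hx => ?_,
    fun I hI => ?_, fun a b J J' n ha hb hJ hc hn => ?_⟩, dvd_mul_left _ _⟩
  · obtain ⟨a, ha⟩ := hD₁ x hx
    refine ⟨((72 * 6 ^ k * D₂ * m : ℕ) : 𝓞 F) * a, ?_⟩
    simp only [map_mul, map_natCast]
    rw [← NumberField.RingOfIntegers.coe_eq_algebraMap, ← ha]
    push_cast
    ring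
  · obtain ⟨J, a, hJ, ha⟩ := hD₂ I hI
    refine ⟨J, a, ?_, ha⟩
    rw [show 72 * 6 ^ k * D₁ * D₂ * m = 72 * 6 ^ k * D₁ * m * D₂ by ring, Nat.cast_mul]
    exact Ideal.mul_mem_left _ _ hJ
  · have hJ' : J' ≠ ⊥ := by
      rintro rfl
      rw [Ideal.mul_bot, Ideal.span_singleton_eq_bot] at hJ
      exact hb hJ
    obtain ⟨J₁, J₆, l, rfl, h1, h6⟩ := inst_split J' hJ'
    have hJ6 : Cp J 6 := by
      rw [show 72 * 6 ^ k * D₁ * D₂ * m = 6 * (12 * 6 ^ k * D₁ * D₂ * m) by ring, Nat.cast_mul] at hc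
      exact_mod_cast (cp_mul_right.1 hc).1
    have h6k : (6 : 𝓞 F) ^ k ∣ a - 1 := by
      refine Dvd.dvd.trans ⟨((72 * D₁ * D₂ * m : ℕ) : 𝓞 F), ?_⟩ ha
      push_cast
      ring
    rw [hk a b (J * J₁) J₆ l h6k hb (by rw [hJ, mul_assoc]) (cp_mul_left.2 ⟨hJ6, h1⟩) h6, sI_mul_right,
      sI_congr_rad (u := a) (v := 1) (I := J₁), sI_one_left, if_pos h1, mul_one]
    intro P hP hd
    obtain ⟨c, hc'⟩ := ha
    rw [hc']
    exact Ideal.mul_mem_right _ _ ((Ideal.isPrime_of_prime hP).mem_of_pow_mem n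
      (Ideal.le_of_dvd (hd.mul_right J₆) hn))

theorem stSec : StSec := by
  intro F _ _ _ v
  obtain ⟨E', hE⟩ := v.exists_compl v.E
  obtain ⟨P, h1, h2, h3⟩ := v.exists_Pr hE
  exact ⟨P, ⟨⟨fun n hn => (h1 n hn).1, h2, h3⟩, E', hE.disjoint.symm, fun n hn => (h1 n hn).2⟩⟩

theorem inst_quad {k : Type} [CommRing k] [Fintype k] {ψ : AddChar k ℂ} (hψ : ψ.IsPrimitive) (h2 : IsUnit (2 : k)) :
    (∑ x, ψ (x ^ 2)) * conj (∑ x, ψ (x ^ 2)) = Fintype.card k := by
  calc (∑ x, ψ (x ^ 2)) * conj (∑ x, ψ (x ^ 2))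
      = ∑ y, ∑ h, ψ (h ^ 2) * ψ (y * (2 * h)) := by
        rw [map_sum, Finset.mul_sum]
        refine Finset.sum_congr rfl fun y _ => ?_
        rw [← Equiv.sum_comp (Equiv.addRight y), Finset.sum_mul]
        refine Finset.sum_congr rfl fun h _ => ?_
        rw [← AddChar.map_neg_eq_conj, ← AddChar.map_add_eq_mul, ← AddChar.map_add_eq_mul, Equiv.coe_addRight]
        congr 1
        ring
    _ = ∑ h, if h = 0 then ψ (h ^ 2) * Fintype.card k else 0 := by
        rw [Finset.sum_comm]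
        refine Finset.sum_congr rfl fun h _ => ?_
        rw [← Finset.mul_sum, AddChar.sum_mulShift _ hψ]
        simp only [h2.mul_right_eq_zero]
        split_ifs <;> simp
    _ = _ := by simp

section
variable {F : Type} [Field F] [NumberField F] [Algebra K3 F] (v : Lv F)

theorem inst_dvd {h c : v.R} (hc : c ≠ 0) (H : ∀ y : v.R, v.psi (((h * y : v.R) : F) / c) = 1) : c ∣ h := by
  have hc' : (c : F) ≠ 0 := fun e => hc (Subtype.ext e)
  have := v.psi_dual (x := (h : F) / c) fun y => by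
    rw [← H (v.up y)]
    congr 1
    simp only [MulMemClass.coe_mul, Lv.coe_up]
    ring
  exact ⟨⟨_, this⟩, Subtype.ext (by simp only [MulMemClass.coe_mul]; field_simp)⟩

theorem inst_psi_congr {a b c : v.R} (hc : c ≠ 0) (h : c ∣ a - b) : v.psi ((a : F) / c) = v.psi ((b : F) / c) := by
  have hc' : (c : F) ≠ 0 := fun e => hc (Subtype.ext e)
  obtain ⟨d, hd⟩ := h
  have e : (a : F) / c = (b : F) / c + d := by
    have := congrArg (fun x : v.R => (x : F)) hd
    simp only [AddSubgroupClass.coe_sub, MulMemClass.coe_mul] at this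
    field_simp
    linear_combination this
  rw [e, v.psi_add, v.psi_R d.2, mul_one]

theorem inst_norm {n : v.R} (hn : n ≠ 0) : ‖v.Gq2 n‖ = Real.sqrt (Ab.nm n) := by
  have := v.finite_quot hn
  let _ := Fintype.ofFinite (v.R ⧸ Ideal.span {n})
  have key : ∀ y : v.R, v.psi (((Quotient.out (Ideal.Quotient.mk (Ideal.span {n}) y) : v.R) : F) / n) =
      v.psi ((y : F) / n) := fun y => inst_psi_congr v hn (by
    rw [← Ideal.mem_span_singleton, ← Ideal.Quotient.eq]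
    exact Ideal.Quotient.mk_out _)
  let ψ : AddChar (v.R ⧸ Ideal.span {n}) ℂ :=
    { toFun := fun x => v.psi (((Quotient.out x : v.R) : F) / n)
      map_zero_eq_one' := (key 0).trans (by simpa using v.psi_R (zero_mem _))
      map_add_eq_mul' := fun a b => by
        obtain ⟨a, rfl⟩ := Ideal.Quotient.mk_surjective a
        obtain ⟨b, rfl⟩ := Ideal.Quotient.mk_surjective b
        rw [← map_add, key, key, key, ← v.psi_add, AddMemClass.coe_add, add_div] }
  have hψ : ∀ y : v.R, ψ (Ideal.Quotient.mk _ y) = v.psi ((y : F) / n) := key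
  have hp : ψ.IsPrimitive := fun a ha h => by
    obtain ⟨a, rfl⟩ := Ideal.Quotient.mk_surjective a
    refine ha ((Ideal.Quotient.eq_zero_iff_dvd _ _).2 (inst_dvd v hn fun y => ?_))
    rw [← hψ, map_mul, ← AddChar.mulShift_apply, h, AddChar.one_apply]
  have h2 : IsUnit (2 : v.R ⧸ Ideal.span {n}) := by
    have := (isUnit_of_dvd_unit (⟨3, by norm_num⟩ : (2 : v.R) ∣ 6) v.isUnit_six).map
      (Ideal.Quotient.mk (Ideal.span {n}))
    rwa [map_ofNat] at this
  have h3 := inst_quad hp h2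
  have h4 : v.Gq2 n = ∑ x, ψ (x ^ 2) := by
    rw [Lv.Gq2, finsum_eq_sum_of_fintype]
    refine Finset.sum_congr rfl fun x _ => ?_
    conv_rhs => rw [← Ideal.Quotient.mk_out x, ← map_pow, hψ]
    rfl
  rw [← h4, Complex.mul_conj', ← Nat.card_eq_fintype_card] at h3
  have h5 : ‖v.Gq2 n‖ ^ 2 = Ab.nm n := by
    rw [Ab.nm, Ab.nN]
    exact_mod_cast h3
  rw [← h5, Real.sqrt_sq (norm_nonneg _)]

theorem inst_gam {a b : v.R} (ha : a ≠ 0) (hb : b ≠ 0) (h : v.cl a = v.cl b) :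
    v.Gq2 a / (Real.sqrt (Ab.nm a) : ℂ) = v.Gq2 b / (Real.sqrt (Ab.nm b) : ℂ) := by
  obtain ⟨t, ht, e⟩ := v.Gq2_cl ha hb h
  have e2 := congrArg norm e
  rw [norm_mul, inst_norm v ha, inst_norm v hb, Complex.norm_real, Real.norm_of_nonneg ht.le] at e2
  rw [e, e2]
  push_cast
  rw [mul_div_mul_left _ _ (Complex.ofReal_ne_zero.2 ht.ne')]

end

theorem stAr : StAr := by
  intro F _ _ _ v P hP
  obtain ⟨hil, h1, h2, h3, h4⟩ := v.exists_hil
  have ne : ∀ {a : v.R}, a ≠ 0 → (a : F) ≠ 0 := fun h e => h (Subtype.ext e)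
  refine ⟨{ v.dt P with
    fin := fun n hn => v.finite_quot hn
    inf := Infinite.of_injective _ v.up_injective
    six := v.isUnit_six
    pr_ne := hP.ne
    pr_ex := fun a ha => hP.ex a ha
    pr_uniq := fun m n hm hn => hP.uniq m hm n hn
    eQ_add := fun y y' c => ?_
    eQ_norm := fun y c => v.norm_psi _
    eQ_mul := fun y c a ha => ?_
    eQ_one := fun y => ?_
    eQ_dual := fun h c hc H => inst_dvd v hc H
    sx_zero := v.sx_zero_right
    sx_mul_left := v.sx_mul_left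
    sx_mul_right := v.sx_mul_right
    sx_congr := fun _ _ _ h => v.sx_congr h
    sx_pow_six := fun u _ hn => v.sx_pow_six u hn
    sx_prim := fun p hp => ?_
    finC := v.finite_Gq
    cls_mul := fun a b ha hb => v.cl_mul (ne ha) (ne hb)
    hs := hil
    hs_mul_left := h1
    hs_mul_right := fun x y z => ?_
    hs_pow_six := h3
    recip := h4
    hs_diag := fun a ha => ?_
    al_mul := fun a b _ _ => v.al_mul a b
    al_norm := fun a ha => v.norm_al ha
    al_unit := fun u hu => v.al_unit hu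
    al_zero := ?_
    jac := fun p hp => ?_
    gam_cls := fun a b ha hb h => ?_ }, rfl⟩
  · change v.psi _ = v.psi _ * v.psi _
    rw [← v.psi_add, AddMemClass.coe_add, add_div]
  · change v.psi _ = v.psi _
    rw [MulMemClass.coe_mul, MulMemClass.coe_mul, mul_div_mul_right _ _ (ne ha)]
  · change v.psi _ = 1
    exact v.psi_R (by simp)
  · obtain ⟨u, hu⟩ := v.exists_sx_eq_zt hp
    refine ⟨u, ?_⟩
    change IsPrimitiveRoot (v.sx u _) 6
    rw [hu]; exact isPrimitiveRoot_sg_zt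
  · have e := h1 y z x
    rw [h2 _ x, h2 y x, h2 z x, ← map_mul]
    exact congrArg conj e
  · change hil (v.cl a) (v.cl a) = v.sx (-1) a
    obtain ⟨b, hb, hc, e⟩ := v.exists_rep (v.cl a) ha
    have e1 := v.rr_same ha hb hc.symm e.symm
    have e2 : v.sx b a ^ 6 = 1 := by rw [v.sx_pow_six b ha, if_pos hc]
    have e3 : v.sx b a * conj (v.sx b a) = 1 := by
      rw [Complex.mul_conj', Complex.norm_eq_one_of_pow_eq_one e2 (by norm_num)]
      simp
    rw [Lv.rr, h4 a b ha hb, e, mul_assoc, e3, mul_one] at e1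
    exact e1
  · change v.al 0 = 0
    rw [Lv.al, v.nrm_zero, al_zero]
  · have e := v.jac hp
    rw [v.N_eq_card hp.ne_zero, ← neg_mul] at e
    exact e
  · exact inst_gam v ha hb h

end Crest.Agent.R27
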