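import Crest.Agent.R27.G.Psi

/-! Row 27, block G: the finite class group, primary generators, the Hilbert symbol.  Helper prefix `cls_`. -/

set_option autoImplicit false

namespace Crest.Agent.R27.G.Lv

open Crest.Agent.R17 Crest.NumberTheoryR.EisensteinField
open scoped ComplexConjugate Classical NumberField

variable {F : Type} [Field F] [NumberField F] [Algebra K3 F] (v : Lv F)

/-! ### part a: classes -/

theorem cl_of_ne {x : F} (hx : x ≠ 0) : v.cl x = QuotientGroup.mk (Units.mk0 x hx) := dif_neg hx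

theorem clsa_unit (x : Fˣ) : v.cl x = QuotientGroup.mk x := by
  rw [v.cl_of_ne x.ne_zero, Units.mk0_val]

theorem clsa_zero : v.cl 0 = 1 := dif_pos rfl

/-- `rw [one_mul]`, `rw [mul_one]` fail on `v.Gq` (instance paths); use these -/
theorem clsa_one_mul (g : v.Gq) : 1 * g = g := one_mul g

theorem clsa_mul_one (g : v.Gq) : g * 1 = g := mul_one g

@[simp] theorem cl_one : v.cl 1 = 1 := by
  exact v.clsa_unit 1

theorem cl_mul {x y : F} (hx : x ≠ 0) (hy : y ≠ 0) : v.cl (x * y) = v.cl x * v.cl y := by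
  rw [v.cl_of_ne hx, v.cl_of_ne hy, v.cl_of_ne (mul_ne_zero hx hy), Units.mk0_mul, QuotientGroup.mk_mul]

theorem cl_pow (x : F) (k : ℕ) : v.cl (x ^ k) = v.cl x ^ k := by
  induction k with
  | zero => rw [pow_zero, pow_zero, cl_one]
  | succ k ih =>
    by_cases hx : x = 0
    · rw [hx, zero_pow k.succ_ne_zero, clsa_zero, one_pow]
    · rw [pow_succ, pow_succ, v.cl_mul (pow_ne_zero k hx) hx, ih]

theorem cl_inv (x : F) : v.cl x⁻¹ = (v.cl x)⁻¹ := by
  by_cases hx : x = 0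
  · rw [hx, inv_zero, clsa_zero, inv_one]
  · rw [eq_inv_iff_mul_eq_one, ← v.cl_mul (inv_ne_zero hx) hx, inv_mul_cancel₀ hx, cl_one]

theorem cl_U {x : F} (h : v.U x) : v.cl x = 1 := by
  rw [v.cl_of_ne (v.U_ne_zero h), QuotientGroup.eq_one_iff]
  exact Subgroup.mem_sup_left (Subgroup.subset_closure h)

theorem cl_surj (g : v.Gq) : ∃ x : F, x ≠ 0 ∧ v.cl x = g := by
  obtain ⟨x, rfl⟩ := QuotientGroup.mk_surjective g
  exact ⟨x, x.ne_zero, v.clsa_unit x⟩

theorem Gq_pow_six (g : v.Gq) : g ^ 6 = 1 := by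
  obtain ⟨x, rfl⟩ := QuotientGroup.mk_surjective g
  rw [← QuotientGroup.mk_pow, QuotientGroup.eq_one_iff]
  exact Subgroup.mem_sup_right ⟨x, rfl⟩

theorem clsa_mem {x : Fˣ} (h : x ∈ Subgroup.closure {x : Fˣ | v.U x}) : v.U x := by
  induction h using Subgroup.closure_induction with
  | mem x hx => exact hx
  | one => exact v.U_one
  | mul x y _ _ hx hy => exact v.U_mul hx hy
  | inv x _ hx => rw [Units.val_inv_eq_inv_val]; exact v.U_inv hx

/-- `{x | U x}` is already a subgroup (`U_one`, `U_mul`, `U_inv`); `Subgroup.mem_sup` -/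
theorem cl_eq_iff {x y : F} (hx : x ≠ 0) (hy : y ≠ 0) :
    v.cl x = v.cl y ↔ ∃ z u : F, z ≠ 0 ∧ v.U u ∧ y = x * z ^ 6 * u := by
  constructor
  · intro h
    rw [v.cl_of_ne hx, v.cl_of_ne hy, QuotientGroup.eq] at h
    obtain ⟨u, hu, _, ⟨z, rfl⟩, e⟩ := Subgroup.mem_sup.1 h
    refine ⟨z, u, z.ne_zero, v.clsa_mem hu, ?_⟩
    have := congrArg Units.val (eq_inv_mul_iff_mul_eq.1 e)
    simp only [Units.val_mul, Units.val_mk0, powMonoidHom_apply, Units.val_pow_eq_pow_val] at this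
    rw [← this]
    ring
  · rintro ⟨z, u, hz, hu, rfl⟩
    rw [v.cl_mul (mul_ne_zero hx (pow_ne_zero 6 hz)) (v.U_ne_zero hu), v.cl_mul hx (pow_ne_zero 6 hz),
      v.cl_U hu, cl_pow, Gq_pow_six, clsa_mul_one, clsa_mul_one]

theorem clsa_div {a x : F} (hx : x ≠ 0) (h : v.U (a / x)) : a ≠ 0 ∧ v.cl a = v.cl x := by
  have h0 := v.U_ne_zero h
  refine ⟨(div_ne_zero_iff.1 h0).1, ?_⟩
  rw [← div_mul_cancel₀ a hx, v.cl_mul h0 hx, v.cl_U h, clsa_one_mul]

/-- `approx` with `a₀ = 1` -/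
theorem exists_rep (g : v.Gq) {b : v.R} (hb : b ≠ 0) : ∃ a : v.R, a ≠ 0 ∧ IsCoprime a b ∧ v.cl a = g := by
  obtain ⟨x, hx, rfl⟩ := v.cl_surj g
  obtain ⟨a, ⟨c, hc⟩, hU⟩ := v.approx hx hb 1
  obtain ⟨h0, h1⟩ := v.clsa_div hx hU
  exact ⟨a, fun h => h0 (by rw [h]; rfl), ⟨1, -c, by linear_combination hc⟩, h1⟩

theorem mem_E {g : v.Gq} : g ∈ v.E ↔ ∃ u : v.R, IsUnit u ∧ g = v.cl u := by
  refine ⟨fun h => ?_, fun h => Subgroup.subset_closure h⟩
  have h0 : ∀ u : v.R, IsUnit u → (u : F) ≠ 0 := fun u hu h => hu.ne_zero (Subtype.ext h)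
  induction h using Subgroup.closure_induction with
  | mem x hx => exact hx
  | one => exact ⟨1, isUnit_one, v.cl_one.symm⟩
  | mul x y _ _ hx hy =>
    obtain ⟨u, hu, rfl⟩ := hx
    obtain ⟨w, hw, rfl⟩ := hy
    exact ⟨u * w, hu.mul hw, (v.cl_mul (h0 u hu) (h0 w hw)).symm⟩
  | inv x _ hx =>
    obtain ⟨_, ⟨u, rfl⟩, rfl⟩ := hx
    refine ⟨↑u⁻¹, u⁻¹.isUnit, inv_eq_of_mul_eq_one_right ?_⟩
    rw [← v.cl_mul (h0 _ u.isUnit) (h0 _ u⁻¹.isUnit), ← Subalgebra.coe_mul, Units.mul_inv, Subalgebra.coe_one,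
      cl_one]

/-- integers coprime to `M` and congruent modulo `M` have the same class: `a' / a = 1 + M (c / a)`, `inv_mem_L` -/
theorem cl_congr {a a' : 𝓞 F} (h : IsCoprime a (v.M : 𝓞 F)) (h' : (v.M : 𝓞 F) ∣ a' - a) :
    v.cl (a : F) = v.cl (a' : F) := by
  obtain ⟨c, hc⟩ := h'
  have h0 := v.loca_ne_zero' h
  refine (v.clsa_div h0 ⟨c * (a : F)⁻¹, mul_mem (v.coe_mem_L c) (v.inv_mem_L h), ?_⟩).2.symm
  have e : (a' : F) = a + v.M * c := by
    rw [sub_eq_iff_eq_add'.1 hc]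
    simp
  rw [e]
  field_simp

/-! ### part b: finiteness, complement -/

/-- `IsDedekindDomain.exists_sup_span_eq` for `P (M) ≤ P`, cancel `P` -/
theorem exists_unif {P : Ideal (𝓞 F)} (hP : P ≠ ⊥) :
    ∃ (g : 𝓞 F) (I : Ideal (𝓞 F)), g ≠ 0 ∧ Ideal.span {g} = P * I ∧ Cp I (v.M : 𝓞 F) := by
  have hM : (Ideal.span {(v.M : 𝓞 F)} : Ideal (𝓞 F)) ≠ 0 := fun h => v.M_ne' (Ideal.span_singleton_eq_bot.1 h)
  obtain ⟨g, hg⟩ := IsDedekindDomain.exists_sup_span_eq (I := P * Ideal.span {(v.M : 𝓞 F)}) (J := P)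
    Ideal.mul_le_left (mul_ne_zero hP hM)
  obtain ⟨I, hI⟩ : P ∣ Ideal.span {g} := Ideal.dvd_iff_le.2 (le_sup_right.trans hg.le)
  have h1 : Ideal.span {(v.M : 𝓞 F)} + I = 1 := by
    refine mul_left_cancel₀ hP ?_
    rw [mul_add, ← hI, mul_one, Ideal.add_eq_sup, hg]
  have h2 : Cp I (v.M : 𝓞 F) := by
    rw [Cp, Ideal.isCoprime_iff_add, add_comm, h1]
  refine ⟨g, I, ?_, hI, h2⟩
  rintro rfl
  have h3 : I = 0 := by
    have h4 : P * I = 0 := by rw [← hI]; exact Ideal.span_singleton_eq_bot.2 rfl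
    exact (mul_eq_zero.1 h4).resolve_left hP
  have h5 : Cp (Ideal.span {(0 : 𝓞 F)}) (v.M : 𝓞 F) := by
    rwa [Ideal.span_singleton_eq_bot.2 rfl, ← Ideal.zero_eq_bot, ← h3]
  exact v.loca_ne_zero' (cp_span.1 h5) (by simp)

theorem clsb_fin : {g : v.Gq | ∃ c : 𝓞 F, IsCoprime c (v.M : 𝓞 F) ∧ g = v.cl (c : F)}.Finite := by
  have hM : (Ideal.span {(v.M : 𝓞 F)} : Ideal (𝓞 F)) ≠ ⊥ := fun h => v.M_ne' (Ideal.span_singleton_eq_bot.1 h)
  have := Ring.HasFiniteQuotients.finiteQuotient hM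
  refine (Set.finite_range fun q : 𝓞 F ⧸ Ideal.span {(v.M : 𝓞 F)} => v.cl ((Quotient.out q : 𝓞 F) : F)).subset ?_
  rintro _ ⟨c, hc, rfl⟩
  refine ⟨Ideal.Quotient.mk _ c, (v.cl_congr hc ?_).symm⟩
  rw [← Ideal.mem_span_singleton, ← Ideal.Quotient.eq, Ideal.Quotient.mk_out]

theorem clsb_ind (S : Subgroup v.Gq) (h1 : ∀ c : 𝓞 F, IsCoprime c (v.M : 𝓞 F) → v.cl (c : F) ∈ S)
    (h2 : ∀ P : Ideal (𝓞 F), P ≠ ⊥ → (v.M : 𝓞 F) ∈ P → ∃ (g : 𝓞 F) (I : Ideal (𝓞 F)), g ≠ 0 ∧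
      Ideal.span {g} = P * I ∧ Cp I (v.M : 𝓞 F) ∧ v.cl (g : F) ∈ S) (m : ℕ) (J : Ideal (𝓞 F)) :
    (v.M : 𝓞 F) ^ m ∈ J → ∀ (a : 𝓞 F) (I : Ideal (𝓞 F)), a ≠ 0 → Ideal.span {a} = I * J →
      Cp I (v.M : 𝓞 F) → v.cl (a : F) ∈ S := by
  induction J using UniqueFactorizationMonoid.induction_on_prime with
  | h₁ => exact fun h => absurd h (pow_ne_zero m v.M_ne')
  | h₂ J hJ =>
    intro _ a I _ h hI
    rw [Ideal.isUnit_iff.1 hJ, Ideal.mul_top] at h
    exact h1 a (cp_span.1 (h ▸ hI))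
  | h₃ J P _ hP ih =>
    intro hm a I ha h hI
    have hMP : (v.M : 𝓞 F) ∈ P :=
      (Ideal.isPrime_of_prime hP).mem_of_pow_mem m (Ideal.mul_le_left hm)
    obtain ⟨g, K, hg, hgK, hK, hgS⟩ := h2 P hP.ne_zero hMP
    obtain ⟨w, hw⟩ := cp_iff.1 hK
    have hc : IsCoprime (1 - (v.M : 𝓞 F) * w) (v.M : 𝓞 F) := ⟨1, w, by ring⟩
    have hcK : 1 - (v.M : 𝓞 F) * w ∈ K := by simpa using K.neg_mem hw
    obtain ⟨K', hK'⟩ : K ∣ Ideal.span {1 - (v.M : 𝓞 F) * w} :=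
      Ideal.dvd_iff_le.2 ((Ideal.span_singleton_le_iff_mem K).2 hcK)
    have hcU : v.cl ((1 - (v.M : 𝓞 F) * w : 𝓞 F) : F) = 1 := v.cl_U (v.U_coe ⟨-w, by ring⟩)
    have hc0 := v.loca_ne_zero' hc
    have hK'' : Cp K' (v.M : 𝓞 F) := (cp_mul_left.1 (hK' ▸ cp_span.2 hc)).2
    generalize 1 - (v.M : 𝓞 F) * w = c at *
    have e : Ideal.span {a * c} = Ideal.span {g} * (I * K' * J) := by
      rw [← Ideal.span_singleton_mul_span_singleton, h, hK', hgK]
      ring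
    obtain ⟨a', ha'⟩ : g ∣ a * c := by
      rw [← Ideal.mem_span_singleton, ← Ideal.span_singleton_le_iff_mem, e]
      exact Ideal.mul_le_left
    have hg' : (Ideal.span {g} : Ideal (𝓞 F)) ≠ 0 := fun h => hg (Ideal.span_singleton_eq_bot.1 h)
    rw [ha', ← Ideal.span_singleton_mul_span_singleton] at e
    have ha0 : (a : F) ≠ 0 := by simpa using ha
    have hg0 : (g : F) ≠ 0 := by simpa using hg
    have e2 : (a : F) * c = g * a' := by
      have := congrArg (fun z : 𝓞 F => (z : F)) ha'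
      simpa using this
    have ha'0 : (a' : F) ≠ 0 := by
      intro h0
      rw [h0, mul_zero] at e2
      exact mul_ne_zero ha0 hc0 e2
    have h3 := ih (Ideal.mul_le_right hm) a' (I * K') (by simpa using ha'0) (mul_left_cancel₀ hg' e)
      (cp_mul_left.2 ⟨hI, hK''⟩)
    have e3 := congrArg v.cl e2
    rw [v.cl_mul ha0 hc0, v.cl_mul hg0 ha'0, hcU] at e3
    rw [(mul_one (v.cl (a : F))).symm.trans e3]
    exact S.mul_mem hgS h3

/-- `CommGroup.finite_of_fg_torsion`.  Generators: `cl (g P)` for the finitely many ideals `P ∋ M`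
(`Ring.HasFiniteQuotients.finite_setOfPred_mem`, `exists_unif`) and `cl c` for `c` coprime to `M` (a finite set by
`cl_congr`: it lies in the range of a function on `𝓞 F ⧸ (M)`).  Every class is `cl a`, `a ∈ 𝓞 F` (`exists_nat_mul`,
`x m⁶`), `(a) = I J'` (`exists_split`); induction on `J'` (`UniqueFactorizationMonoid.induction_on_prime`, for all `a`, `I`):
if `J' = P J''`, `(g) = P I_P`, take `c ∈ I_P`, `c ≡ 1 (mod M)`, `(c) = I_P I_c`; then `a c = g a'` with `(a') = I I_c J''`. -/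
instance finite_Gq : Finite v.Gq := by
  have hu : ∀ P : Ideal (𝓞 F), ∃ g : 𝓞 F, P ≠ ⊥ → ∃ I : Ideal (𝓞 F), g ≠ 0 ∧ Ideal.span {g} = P * I ∧
      Cp I (v.M : 𝓞 F) := fun P => by
    by_cases hP : P = ⊥
    · exact ⟨0, fun h => absurd hP h⟩
    · obtain ⟨g, h⟩ := v.exists_unif hP
      exact ⟨g, fun _ => h⟩
  choose g hg using hu
  have hT := v.clsb_fin.union
    ((Ring.HasFiniteQuotients.finite_setOfPred_mem _ v.M_ne').image fun P => v.cl (g P : F))
  have : Group.FG v.Gq := by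
    refine Group.fg_iff.2 ⟨_, ?_, hT⟩
    rw [eq_top_iff]
    rintro x -
    obtain ⟨x, hx, rfl⟩ := v.cl_surj x
    obtain ⟨m, a, hm, ha⟩ := exists_nat_mul x
    have hm0 : (m : F) ≠ 0 := Nat.cast_ne_zero.2 hm.ne'
    have e : (((m : 𝓞 F) ^ 5 * a : 𝓞 F) : F) = x * (m : F) ^ 6 := by
      simp only [map_mul, map_pow, map_natCast]
      rw [← NumberField.RingOfIntegers.coe_eq_algebraMap, ← ha]
      ring
    have h0 : (m : 𝓞 F) ^ 5 * a ≠ 0 := by
      intro h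
      rw [h] at e
      exact mul_ne_zero hx (pow_ne_zero 6 hm0) (by rw [← e]; simp)
    have e' : v.cl x = v.cl (((m : 𝓞 F) ^ 5 * a : 𝓞 F) : F) := by
      rw [e, v.cl_mul hx (pow_ne_zero 6 hm0), v.cl_pow, v.Gq_pow_six]
      exact (mul_one (v.cl x)).symm
    obtain ⟨J, k, hJ, hk⟩ := v.exists_split h0
    rw [e']
    refine v.clsb_ind _ (fun c hc => Subgroup.subset_closure (Or.inl ⟨c, hc, rfl⟩)) (fun P hP hM => ?_) k J hk _ _
      h0 hJ (v.cp_idl fun h => h0 (v.up_injective (h.trans (map_zero _).symm)))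
    obtain ⟨I, h1, h2, h3⟩ := hg P hP
    exact ⟨g P, I, h1, h2, h3, Subgroup.subset_closure (Or.inr ⟨P, hM, rfl⟩)⟩
  exact CommGroup.finite_of_fg_isMulTorsion _ fun x =>
    isOfFinOrder_iff_pow_eq_one.2 ⟨6, by norm_num, v.Gq_pow_six x⟩

theorem cls_compl {G : Type} [CommGroup G] (h6 : ∀ g : G, g ^ 6 = 1) (E : Subgroup G) :
    ∃ E' : Subgroup G, IsCompl E E' := by
  let _ : Module (ZMod 6) (Additive G) := AddCommGroup.zmodModule fun x => h6 x.toMul
  have : IsReduced (ZMod 6) := isReduced_zmod.2 (Or.inl (by decide +kernel))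
  have : IsSemisimpleRing (ZMod 6) := IsArtinianRing.isSemisimpleRing_of_isReduced _
  let φ : Subgroup G ≃o Submodule (ZMod 6) (Additive G) :=
    Subgroup.toAddSubgroup.trans (AddSubgroup.toZModSubmodule 6)
  obtain ⟨N, hN⟩ := exists_isCompl (φ E)
  exact ⟨φ.symm N, by simpa using φ.symm.isCompl hN⟩

/-- `Additive Gq` is a module over `ZMod 6` (`AddCommGroup.zmodModule`), which is semisimple
(`IsArtinianRing.isSemisimpleRing_of_isReduced`, `isReduced_zmod`); `AddSubgroup.toZModSubmodule`, `exists_isCompl` -/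
theorem exists_compl (E : Subgroup v.Gq) : ∃ E' : Subgroup v.Gq, IsCompl E E' := by
  exact cls_compl (G := v.Gq) v.Gq_pow_six E

/-- `cl n = e e'`, `e = cl u`, take `u⁻¹ n` -/
theorem exists_prim {E' : Subgroup v.Gq} (h : IsCompl v.E E') {n : v.R} (hn : n ≠ 0) :
    ∃ m : v.R, Associated n m ∧ v.cl m ∈ E' := by
  have ht : v.cl n ∈ v.E ⊔ E' := by rw [h.sup_eq_top]; trivial
  obtain ⟨e, he, e', he', hn'⟩ := (Subgroup.mem_sup (C := v.Gq)).1 ht
  obtain ⟨_, ⟨u, rfl⟩, rfl⟩ := v.mem_E.1 he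
  refine ⟨n * ↑u⁻¹, ⟨u⁻¹, rfl⟩, ?_⟩
  have h1 : ((u : v.R) : F) * ((u⁻¹ : v.Rˣ) : v.R) = 1 := by
    rw [← Subalgebra.coe_mul, Units.mul_inv, Subalgebra.coe_one]
  rw [Subalgebra.coe_mul, v.cl_mul (by simpa using hn) (right_ne_zero_of_mul_eq_one h1),
    eq_inv_of_mul_eq_one_right h1, v.cl_inv, ← hn', mul_inv_cancel_comm]
  exact he'

/-- choose a primary generator `ρ p` of every prime `p : Associates R`; `Pr` is the range of the monoid hom
`Associates`-factors ↦ product (or: the closure of the set of the `ρ p`; two associated products of chosen primes have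
the same multiset of classes, `UniqueFactorizationMonoid.factors_unique`, `Multiset.rel_eq`) -/
theorem exists_Pr {E' : Subgroup v.Gq} (h : IsCompl v.E E') : ∃ Pr : Submonoid v.R,
    (∀ n ∈ Pr, n ≠ 0 ∧ v.cl n ∈ E') ∧ (∀ n : v.R, n ≠ 0 → ∃ m ∈ Pr, Associated n m) ∧
      ∀ m ∈ Pr, ∀ m' ∈ Pr, Associated m m' → m = m' := by
  have h0 : ∀ a : Associates v.R, ∃ m : v.R, Associates.mk m = a ∧ (a ≠ 0 → v.cl m ∈ E') := by
    intro a
    obtain ⟨n, rfl⟩ := Associates.mk_surjective a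
    by_cases hn : n = 0
    · exact ⟨n, rfl, fun h => absurd (Associates.mk_eq_zero.2 hn) h⟩
    · obtain ⟨m, hm, hm'⟩ := v.exists_prim h hn
      exact ⟨m, Associates.mk_eq_mk_iff_associated.2 hm.symm, fun _ => hm'⟩
  choose ρ h1 h2 using h0
  refine ⟨Submonoid.closure {p | Prime p ∧ ρ (Associates.mk p) = p}, fun n hn => ?_, fun n hn => ?_,
    fun m hm m' hm' hmm => ?_⟩
  · induction hn using Submonoid.closure_induction with
    | mem p hp => exact ⟨hp.1.ne_zero, hp.2 ▸ h2 _ (Associates.mk_ne_zero.2 hp.1.ne_zero)⟩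
    | one => exact ⟨one_ne_zero, by simp⟩
    | mul x y _ _ hx hy =>
      refine ⟨mul_ne_zero hx.1 hy.1, ?_⟩
      rw [Subalgebra.coe_mul, v.cl_mul (by simpa using hx.1) (by simpa using hy.1)]
      exact mul_mem hx.2 hy.2
  · induction n using UniqueFactorizationMonoid.induction_on_prime with
    | h₁ => exact absurd rfl hn
    | h₂ x hx => exact ⟨1, one_mem _, associated_one_iff_isUnit.2 hx⟩
    | h₃ a p ha hp ih =>
      obtain ⟨m, hm, hm'⟩ := ih ha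
      have e : Associated p (ρ (Associates.mk p)) := Associates.mk_eq_mk_iff_associated.1 (h1 _).symm
      exact ⟨ρ (Associates.mk p) * m,
        mul_mem (Submonoid.subset_closure ⟨e.prime hp, by rw [h1]⟩) hm, e.mul_mul hm'⟩
  · obtain ⟨s, hs, rfl⟩ := Submonoid.exists_multiset_of_mem_closure hm
    obtain ⟨t, ht, rfl⟩ := Submonoid.exists_multiset_of_mem_closure hm'
    have := UniqueFactorizationMonoid.factors_unique (fun x hx => (hs x hx).1.irreducible)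
      (fun x hx => (ht x hx).1.irreducible) hmm
    rw [Multiset.rel_eq.1 (this.mono fun a ha b hb hab => by
      rw [← (hs a ha).2, ← (ht b hb).2, Associates.mk_eq_mk_iff_associated.2 hab])]

/-! ### part c: the Hilbert symbol -/

/-- the reciprocity defect -/
noncomputable def rr (a b : v.R) : ℂ := v.sx a b * conj (v.sx b a)

theorem rr_swap (a b : v.R) : v.rr b a = conj (v.rr a b) := by
  rw [rr, rr, map_mul, Complex.conj_conj, mul_comm]

theorem rr_mul_left (a a' b : v.R) : v.rr (a * a') b = v.rr a b * v.rr a' b := by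
  rw [rr, rr, rr, sx_mul_left, sx_mul_right, map_mul]
  ring

theorem rr_pow_six {a b : v.R} (ha : a ≠ 0) (hb : b ≠ 0) (h : IsCoprime a b) : v.rr a b ^ 6 = 1 := by
  rw [rr, mul_pow, ← map_pow, v.sx_pow_six _ hb, v.sx_pow_six _ ha, if_pos h, if_pos h.symm, map_one,
    mul_one]

theorem clsd_mul_conj {z : ℂ} (h : z ^ 6 = 1) : z * conj z = 1 := by
  rw [Complex.mul_conj', Complex.norm_eq_one_of_pow_eq_one h (by norm_num)]
  simp

theorem clsd_ne {a : v.R} (ha : a ≠ 0) : (a : F) ≠ 0 := fun h => ha (Subtype.ext h)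

theorem clsd_U_ne {w : v.R} (hw : v.U w) : w ≠ 0 := fun h => v.U_ne_zero hw (by rw [h]; rfl)

theorem clsd_cop {a b : v.R} (h : b ∣ a - 1) : IsCoprime a b := by
  obtain ⟨c, hc⟩ := h
  exact ⟨1, -c, by linear_combination hc⟩

theorem clsd_U_pow {x : F} (h : v.U x) (k : ℕ) : v.U (x ^ k) := by
  induction k with
  | zero => rw [pow_zero]; exact v.U_one
  | succ k ih => rw [pow_succ]; exact v.U_mul ih h

theorem clsd_sx_six {u n : v.R} (hn : n ≠ 0) (h : IsCoprime u n) : v.sx (u ^ 6) n = 1 := by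
  have h1 := v.sx_pow_six u hn
  rw [if_pos h] at h1
  rw [show u ^ 6 = u * u * u * u * u * u by ring]
  simp only [sx_mul_left]
  linear_combination h1

theorem rr_U {w b : v.R} (hw : v.U w) (hb : b ≠ 0) (h : IsCoprime w b) : v.rr w b = 1 := by
  rw [rr, v.sx_recip hw hb]
  exact clsd_mul_conj (by rw [v.sx_pow_six _ hb, if_pos h])

/-- `a' = a z⁶ u`.  `approx`: `z₁ ≡ 1 (b)` with `U (z₁ / z)`, `t₀ ≡ 1 (b)` with `U (t₀ / (a z₁⁶)⁻¹)`.  Then
`a z₁⁶ t₀` and `a' t₀` are in `U`, so `rr a b · rr t₀ b = 1 = rr a' b · rr t₀ b` -/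
theorem rr_congr {a a' b : v.R} (ha : a ≠ 0) (ha' : a' ≠ 0) (hb : b ≠ 0) (h : IsCoprime a b) (h' : IsCoprime a' b)
    (hc : v.cl a = v.cl a') : v.rr a b = v.rr a' b := by
  have ha0 := v.clsd_ne ha
  obtain ⟨z, u, hz, hu, e⟩ := (v.cl_eq_iff ha0 (v.clsd_ne ha')).1 hc
  obtain ⟨z₁, hz1, hz2⟩ := v.approx hz hb 1
  have hz0 : (z₁ : F) ≠ 0 := fun h0 => v.U_ne_zero hz2 (by rw [h0, zero_div])
  have hz3 : z₁ ≠ 0 := fun h0 => hz0 (by rw [h0]; rfl)
  obtain ⟨t, ht1, ht2⟩ := v.approx (inv_ne_zero (mul_ne_zero ha0 (pow_ne_zero 6 hz0))) hb 1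
  have ht0 : t ≠ 0 := fun h0 => v.U_ne_zero ht2 (by rw [h0]; simp)
  have cz := v.clsd_cop hz1
  have ct := v.clsd_cop ht1
  have U1 : v.U ((a * (z₁ * z₁ * z₁ * z₁ * z₁ * z₁) * t : v.R) : F) := by
    convert ht2 using 1
    push_cast
    field_simp
  have U2 : v.U ((a' * t : v.R) : F) := by
    convert v.U_mul (v.U_mul ht2 hu) (v.clsd_U_pow (v.U_inv hz2) 6) using 1
    push_cast
    rw [e]
    field_simp
  have e1 := v.rr_U U1 hb ((h.mul_left
    (((((cz.mul_left cz).mul_left cz).mul_left cz).mul_left cz).mul_left cz)).mul_left ct)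
  have e2 := v.rr_U U2 hb (h'.mul_left ct)
  have e3 := v.rr_pow_six hz3 hb cz
  simp only [rr_mul_left] at e1 e2
  linear_combination v.rr a' b * e1 - v.rr a b * e2 - v.rr a b * v.rr a' b * v.rr t b * e3

theorem rr_congr_right {a b b' : v.R} (ha : a ≠ 0) (hb : b ≠ 0) (hb' : b' ≠ 0) (h : IsCoprime a b)
    (h' : IsCoprime a b') (hc : v.cl b = v.cl b') : v.rr a b = v.rr a b' := by
  rw [v.rr_swap b a, v.rr_swap b' a, v.rr_congr hb hb' ha h.symm h'.symm hc]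

/-- the diagonal.  `b' = a + M^(6k)` with `M^(6k-1) / a ∈ L` (`exists_nat_mul`, `nat_split`) has the class of `a`;
`sx b' a = 1`, `sx a b' = sx (-1) b' = rr (-1) b' = rr (-1) a` -/
theorem rr_same {a b : v.R} (ha : a ≠ 0) (hb : b ≠ 0) (h : IsCoprime a b) (hc : v.cl a = v.cl b) :
    v.rr a b = v.sx (-1) a := by
  have ha0 := v.clsd_ne ha
  obtain ⟨m, c, hm, hmc⟩ := exists_nat_mul (a : F)⁻¹
  obtain ⟨m₁, t, k, rfl, ⟨d, hd⟩, ht⟩ := v.nat_split hm
  have hL : (v.M : F) ^ k * (a : F)⁻¹ ∈ v.L := by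
    refine ⟨t, (d : 𝓞 F) * c, ht, ?_⟩
    have hd' : (v.M : F) ^ k = m₁ * d := by exact_mod_cast congrArg (Nat.cast : ℕ → F) hd
    simp only [map_mul, map_natCast]
    rw [← NumberField.RingOfIntegers.coe_eq_algebraMap, ← hmc, hd']
    push_cast; ring
  set w : v.R := (v.M : v.R) ^ (k + 1) with hw
  have hwu : IsUnit w := v.isUnit_M.pow _
  have cop : ∀ n : v.R, IsCoprime w n := fun n => isCoprime_one_left.of_isCoprime_of_dvd_left hwu.dvd
  have cop' : ∀ n : v.R, IsCoprime (-1) n := fun n => isCoprime_one_left.neg_left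
  have hU : v.U (((a + w ^ 6 : v.R) : F) / a) := by
    refine ⟨(v.M : F) ^ (5 * k + 5) * ((v.M : F) ^ k * (a : F)⁻¹),
      mul_mem (pow_mem (natCast_mem _ _) _) hL, ?_⟩
    rw [hw]
    push_cast
    field_simp
    ring
  have hb0 : ((a + w ^ 6 : v.R) : F) ≠ 0 := fun h0 => v.U_ne_zero hU (by rw [h0, zero_div])
  have hb' : a + w ^ 6 ≠ 0 := fun h0 => hb0 (by rw [h0]; rfl)
  have hcl : v.cl a = v.cl ((a + w ^ 6 : v.R) : F) :=
    (v.cl_eq_iff ha0 hb0).2 ⟨1, _, one_ne_zero, hU, by field_simp⟩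
  have hab : IsCoprime a (a + w ^ 6) := by
    simpa [add_comm] using ((cop a).pow_left (m := 6)).symm.add_mul_left_right 1
  have e1 : v.sx (a + w ^ 6) a = 1 := by
    rw [v.sx_congr (w := w ^ 6) (by simp), v.clsd_sx_six ha (cop a)]
  have e2 : v.sx a (a + w ^ 6) = v.sx (-1) (a + w ^ 6) := by
    rw [v.sx_congr (w := -1 * w ^ 6) (by simp), sx_mul_left, v.clsd_sx_six hb' (cop _), mul_one]
  have e3 : ∀ n : v.R, v.rr (-1) n = v.sx (-1) n := fun n => by
    rw [rr, v.sx_unit_right n isUnit_one.neg, map_one, mul_one]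
  rw [v.rr_congr_right ha hb hb' h hab (hc.symm.trans hcl), rr, e1, map_one, mul_one, e2, ← e3, ← e3,
    v.rr_congr_right (neg_ne_zero.2 one_ne_zero) ha hb' (cop' _) (cop' _) hcl]

/-- `hil g g' = rr a b` for any coprime representatives (`exists_rep`; compare two choices through a `b''` coprime to
`a a'`) -/
theorem exists_hil : ∃ hil : v.Gq → v.Gq → ℂ, (∀ g₁ g₂ g, hil (g₁ * g₂) g = hil g₁ g * hil g₂ g) ∧
    (∀ g g', hil g' g = conj (hil g g')) ∧ (∀ g g', hil g g' ^ 6 = 1) ∧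
    ∀ a b : v.R, a ≠ 0 → b ≠ 0 → v.sx a b = hil (v.cl a) (v.cl b) * v.sx b a := by
  choose r hr0 hr1 hr using fun (g : v.Gq) (b : v.R) (hb : b ≠ 0) => v.exists_rep g hb
  let hil : v.Gq → v.Gq → ℂ := fun g g' =>
    v.rr (r g _ (hr0 g' 1 one_ne_zero)) (r g' 1 one_ne_zero)
  have key : ∀ a b : v.R, a ≠ 0 → b ≠ 0 → IsCoprime a b → hil (v.cl a) (v.cl b) = v.rr a b := by
    intro a b ha hb h
    have hb0 := hr0 (v.cl b) 1 one_ne_zero
    obtain ⟨a', ha', hc, hcl⟩ := v.exists_rep (v.cl a) (mul_ne_zero hb hb0)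
    rw [← v.rr_congr ha' ha hb hc.of_mul_right_left h hcl,
      v.rr_congr_right ha' hb hb0 hc.of_mul_right_left hc.of_mul_right_right (hr _ _ _).symm]
    exact v.rr_congr (hr0 _ _ _) ha' hb0 (hr1 _ _ _) hc.of_mul_right_right ((hr _ _ _).trans hcl.symm)
  refine ⟨hil, fun g₁ g₂ g => ?_, fun g g' => ?_, fun g g' => ?_, fun a b ha hb => ?_⟩
  · obtain ⟨b, hb, -, rfl⟩ := v.exists_rep g one_ne_zero
    obtain ⟨a, ha, hc, rfl⟩ := v.exists_rep g₁ hb
    obtain ⟨a', ha', hc', rfl⟩ := v.exists_rep g₂ hb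
    rw [← v.cl_mul (v.clsd_ne ha) (v.clsd_ne ha'), key a b ha hb hc, key a' b ha' hb hc',
      ← rr_mul_left]
    exact key (a * a') b (mul_ne_zero ha ha') hb (hc.mul_left hc')
  · obtain ⟨b, hb, -, rfl⟩ := v.exists_rep g' one_ne_zero
    obtain ⟨a, ha, hc, rfl⟩ := v.exists_rep g hb
    rw [key a b ha hb hc, key b a hb ha hc.symm, rr_swap]
  · exact v.rr_pow_six (hr0 _ _ _) (hr0 _ _ _) (hr1 _ _ _)
  · by_cases h : IsCoprime a b
    · have := clsd_mul_conj (z := v.sx b a) (by rw [v.sx_pow_six _ ha, if_pos h.symm])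
      rw [key a b ha hb h, rr]
      linear_combination -v.sx a b * this
    · have h1 := v.sx_pow_six a hb
      have h2 := v.sx_pow_six b ha
      rw [if_neg h] at h1
      rw [if_neg fun h' => h h'.symm] at h2
      rw [pow_eq_zero_iff (by norm_num)] at h1 h2
      rw [h1, h2, mul_zero]

end Crest.Agent.R27.G.Lv
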