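import Crest.Agent.R27.Sym

/-!
# Row 27, block G (owner helper19): the concrete model.  DO NOT EDIT without telling helper19.

`F` is a number field with `[Algebra K3 F]`, `v : Lv F` a level `M = v.M`.
`v.R = 𝓞 F[1/M]` (a PID) and `v.L = 𝓞 F` localised at the integers coprime to `M` are subalgebras of `F`.
`v.idl n = n R ∩ 𝓞 F`, `v.N n = |R / n|`, `v.psi : F → ℂ` (trivial on `R`, `exp(2πi Tr)` on `L`), `v.sx u n = (u / n)₆`,
`v.al n` the angle of the primary generator of the relative norm of `idl n`, `v.cl x` the class of `x ∈ F` in the finite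
group `v.Gq = Fˣ / (sixth powers · (1 + M L))`.
-/

set_option autoImplicit false

namespace Crest.Agent.R27.G

open Crest.Agent.R17 Crest.NumberTheoryR.EisensteinField
open scoped ComplexConjugate Classical NumberField

noncomputable section

/-- `exp (2πi Tr x)` -/
def eT {F : Type} [Field F] [NumberField F] (x : F) : ℂ :=
  Complex.exp (2 * Real.pi * Complex.I * ((Algebra.trace ℚ F x : ℚ) : ℂ))

/-- the primary generator of an ideal of `O` (`0` if there is none) -/
def pg (I : Ideal O) : O := if h : ∃ π, Prim π ∧ I = Ideal.span {π} then h.choose else 0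

/-- a level: divisible by `72`, kills the inverse different modulo `𝓞 F`, the primes over it generate the class
group, and reciprocity holds at level `M` -/
structure Lv (F : Type) [Field F] [NumberField F] [Algebra K3 F] where
  M : ℕ
  pos : 0 < M
  dvd : 72 ∣ M
  dual : ∀ x : F, (∀ y : 𝓞 F, ∃ n : ℤ, Algebra.trace ℚ F (x * y) = n) → ∃ a : 𝓞 F, (M : F) * x = a
  gen : ∀ I : Ideal (𝓞 F), I ≠ ⊥ →
    ∃ (J : Ideal (𝓞 F)) (a : 𝓞 F), (M : 𝓞 F) ∈ J ∧ I * J = Ideal.span {a}
  recip : ∀ (a b : 𝓞 F) (J J' : Ideal (𝓞 F)) (m : ℕ), (M : 𝓞 F) ∣ a - 1 → b ≠ 0 → Ideal.span {b} = J * J' →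
    Cp J (M : 𝓞 F) → (M : 𝓞 F) ^ m ∈ J' → sE b a = sI a J

namespace Lv

variable {F : Type} [Field F] [NumberField F] [Algebra K3 F] (v : Lv F)

/-- `𝓞 F[1/M]` -/
def R : Subalgebra (𝓞 F) F where
  carrier := {x | ∃ (k : ℕ) (a : 𝓞 F), (v.M : F) ^ k * x = a}
  mul_mem' := by
    rintro x y ⟨k, a, ha⟩ ⟨l, b, hb⟩
    refine ⟨k + l, a * b, ?_⟩
    simp only [map_mul]
    rw [← NumberField.RingOfIntegers.coe_eq_algebraMap, ← NumberField.RingOfIntegers.coe_eq_algebraMap, ← ha, ← hb]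
    ring
  add_mem' := by
    rintro x y ⟨k, a, ha⟩ ⟨l, b, hb⟩
    refine ⟨k + l, (v.M : 𝓞 F) ^ l * a + (v.M : 𝓞 F) ^ k * b, ?_⟩
    simp only [map_add, map_mul, map_pow, map_natCast]
    rw [← NumberField.RingOfIntegers.coe_eq_algebraMap, ← NumberField.RingOfIntegers.coe_eq_algebraMap, ← ha, ← hb]
    ring
  algebraMap_mem' a := ⟨0, a, by simp⟩

/-- `𝓞 F` localised at the integers coprime to `M` -/
def L : Subalgebra (𝓞 F) F where
  carrier := {x | ∃ (t : ℕ) (a : 𝓞 F), t.Coprime v.M ∧ (t : F) * x = a}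
  mul_mem' := by
    rintro x y ⟨k, a, hk, ha⟩ ⟨l, b, hl, hb⟩
    refine ⟨k * l, a * b, hk.mul_left hl, ?_⟩
    simp only [map_mul]
    rw [← NumberField.RingOfIntegers.coe_eq_algebraMap, ← NumberField.RingOfIntegers.coe_eq_algebraMap, ← ha, ← hb]
    push_cast; ring
  add_mem' := by
    rintro x y ⟨k, a, hk, ha⟩ ⟨l, b, hl, hb⟩
    refine ⟨k * l, (l : 𝓞 F) * a + (k : 𝓞 F) * b, hk.mul_left hl, ?_⟩
    simp only [map_add, map_mul, map_natCast]
    rw [← NumberField.RingOfIntegers.coe_eq_algebraMap, ← NumberField.RingOfIntegers.coe_eq_algebraMap, ← ha, ← hb]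
    push_cast; ring
  algebraMap_mem' a := ⟨1, a, by simp, by simp⟩

/-- the integer `a` as an element of `R` -/
abbrev up (a : 𝓞 F) : v.R := algebraMap (𝓞 F) v.R a

/-- `n R ∩ 𝓞 F` -/
def idl (n : v.R) : Ideal (𝓞 F) := (Ideal.span {n}).comap (algebraMap (𝓞 F) v.R)

/-- the norm -/
def N (n : v.R) : ℕ := Ideal.absNorm (v.idl n)

/-- an integer `M^(6k) u` -/
def num (u : v.R) : 𝓞 F := if h : ∃ a : 𝓞 F, ∃ k : ℕ, (v.M : F) ^ (6 * k) * u = a then h.choose else 0

/-- the sextic symbol `(u / n)₆` on `R` -/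
def sx (u n : v.R) : ℂ := sI (v.num u) (v.idl n)

/-- an element of `L` congruent to `x` modulo `R` -/
def lp (x : F) : F := if h : ∃ l ∈ v.L, x - l ∈ v.R then h.choose else 0

/-- the additive character -/
def psi (x : F) : ℂ := eT (v.lp x)

/-- the primary generator of the relative norm -/
def nrm (n : v.R) : O := pg (Ideal.relNorm O (v.idl n))

/-- the angle -/
def al (n : v.R) : ℂ := R17.al (v.nrm n)

/-- `x ≡ 1 (mod M L)` -/
def U (x : F) : Prop := ∃ l ∈ v.L, x = 1 + v.M * l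

/-- sixth powers times `U` -/
def H : Subgroup Fˣ := Subgroup.closure {x | v.U x} ⊔ (powMonoidHom 6).range

/-- the finite class group -/
abbrev Gq : Type := Fˣ ⧸ v.H

/-- the class of `x ≠ 0` -/
def cl (x : F) : v.Gq := if h : x = 0 then 1 else QuotientGroup.mk (Units.mk0 x h)

/-- the classes of the units of `R` -/
def E : Subgroup v.Gq := Subgroup.closure {g | ∃ u : v.R, IsUnit u ∧ g = v.cl u}

end Lv

end

end Crest.Agent.R27.G
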