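import Crest.Agent.R27.G.Defs

/-! Row 27, block G: the rings `R`, `L`, the ideals `idl n`.  Helper prefix `loc_`. -/

set_option autoImplicit false

namespace Crest.Agent.R27.G.Lv

open Crest.Agent.R17 Crest.NumberTheoryR.EisensteinField
open scoped ComplexConjugate Classical NumberField

variable {F : Type} [Field F] [NumberField F] [Algebra K3 F] (v : Lv F)

/-! ### part a: the two rings -/

theorem mem_R {x : F} : x ∈ v.R ↔ ∃ (k : ℕ) (a : 𝓞 F), (v.M : F) ^ k * x = a := Iff.rfl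

theorem mem_L {x : F} : x ∈ v.L ↔ ∃ (t : ℕ) (a : 𝓞 F), t.Coprime v.M ∧ (t : F) * x = a := Iff.rfl

theorem coe_mem_R (a : 𝓞 F) : (a : F) ∈ v.R := v.R.algebraMap_mem a

theorem coe_mem_L (a : 𝓞 F) : (a : F) ∈ v.L := v.L.algebraMap_mem a

@[simp] theorem coe_up (a : 𝓞 F) : ((v.up a : v.R) : F) = a := rfl

theorem up_injective : Function.Injective v.up := fun _ _ h =>
  NumberField.RingOfIntegers.ext (congrArg (fun x : v.R => (x : F)) h)

theorem M_ne : (v.M : F) ≠ 0 := Nat.cast_ne_zero.2 v.pos.ne'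

theorem M_ne' : (v.M : 𝓞 F) ≠ 0 := Nat.cast_ne_zero.2 v.pos.ne'

theorem inv_M_mem : (v.M : F)⁻¹ ∈ v.R := by
  exact ⟨1, 1, by simp [mul_inv_cancel₀ v.M_ne]⟩

theorem isUnit_M : IsUnit (v.M : v.R) := by
  refine IsUnit.of_mul_eq_one ⟨_, v.inv_M_mem⟩ (Subtype.ext ?_)
  simp [mul_inv_cancel₀ v.M_ne]

/-- a divisor of a power of `M` is a unit of `R` -/
theorem isUnit_up {a : 𝓞 F} {m : ℕ} (h : a ∣ (v.M : 𝓞 F) ^ m) : IsUnit (v.up a) := by
  have h1 := map_dvd (algebraMap (𝓞 F) v.R) h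
  rw [map_pow, map_natCast] at h1
  exact isUnit_of_dvd_unit h1 (v.isUnit_M.pow m)

theorem isUnit_six : IsUnit (6 : v.R) := by
  have h1 : ((6 : ℕ) : v.R) ∣ (v.M : v.R) := Nat.cast_dvd_cast ((by norm_num : 6 ∣ 72).trans v.dvd)
  exact isUnit_of_dvd_unit (by exact_mod_cast h1) v.isUnit_M

theorem loca_ne_zero {t : ℕ} (ht : t.Coprime v.M) : t ≠ 0 := by
  rintro rfl
  have h1 := v.dvd
  rw [Nat.coprime_zero_left] at ht
  rw [ht] at h1
  norm_num at h1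

theorem inv_nat_mem_L {t : ℕ} (ht : t.Coprime v.M) : (t : F)⁻¹ ∈ v.L := by
  have h0 : (t : F) ≠ 0 := Nat.cast_ne_zero.2 (v.loca_ne_zero ht)
  exact ⟨t, 1, ht, by simp [mul_inv_cancel₀ h0]⟩

theorem loca_cop {a : 𝓞 F} (h : IsCoprime a (v.M : 𝓞 F)) :
    (Ideal.absNorm (Ideal.span {a})).Coprime v.M := by
  refine Nat.coprime_of_dvd fun p hp h1 h2 => ?_
  obtain ⟨P, hP, h3, h4⟩ := Ideal.exists_isMaximal_dvd_of_dvd_absNorm' hp _ h1
  have ha : a ∈ P := Ideal.le_of_dvd h4 (Ideal.mem_span_singleton_self a)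
  have hpP : (p : 𝓞 F) ∈ P := by
    have : (p : ℤ) ∈ P.under ℤ := h3 ▸ Ideal.mem_span_singleton_self _
    simpa using Ideal.mem_comap.1 this
  have hM : (v.M : 𝓞 F) ∈ P := Ideal.mem_of_dvd _ (Nat.cast_dvd_cast h2) hpP
  obtain ⟨u, w, huw⟩ := h
  refine hP.ne_top ((Ideal.eq_top_iff_one P).2 ?_)
  rw [← huw]
  exact P.add_mem (P.mul_mem_left _ ha) (P.mul_mem_left _ hM)

theorem loca_ne_zero' {a : 𝓞 F} (h : IsCoprime a (v.M : 𝓞 F)) : (a : F) ≠ 0 := by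
  intro h0
  have h1 : a = 0 := NumberField.RingOfIntegers.ext (by simpa using h0)
  refine v.loca_ne_zero (v.loca_cop h) ?_
  rw [h1, Ideal.span_singleton_eq_bot.2 rfl, Ideal.absNorm_bot]

/-- if `(a)` is coprime to `M` then it contains an integer `t` coprime to `M`: from `a b = 1 + M c` take
`t = |N(1 + M c)|` (`Algebra.norm`, `≡ ±1 mod M`; or: `t = absNorm (a)`, a prime dividing `t` and `M` lies under
a prime ideal dividing `(a)`, `Ideal.exists_isMaximal_dvd_of_dvd_absNorm'`) -/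
theorem inv_mem_L {a : 𝓞 F} (h : IsCoprime a (v.M : 𝓞 F)) : (a : F)⁻¹ ∈ v.L := by
  obtain ⟨c, hc⟩ := Ideal.mem_span_singleton'.1 (Ideal.absNorm_mem (Ideal.span {a}))
  refine ⟨_, c, v.loca_cop h, ?_⟩
  have h1 := congrArg (fun z : 𝓞 F => (z : F)) hc
  simp only [map_mul, map_natCast] at h1
  rw [← h1, mul_assoc, mul_inv_cancel₀ (v.loca_ne_zero' h), mul_one]

theorem loca_num {x : F} (h : v.U x) :
    ∃ (t : ℕ) (b : 𝓞 F), t.Coprime v.M ∧ IsCoprime b (v.M : 𝓞 F) ∧ (t : F) * x = b := by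
  obtain ⟨l, ⟨t, a, ht, ha⟩, rfl⟩ := h
  refine ⟨t, t + v.M * a, ht, ht.cast.add_mul_left_left a, ?_⟩
  simp only [map_add, map_mul, map_natCast]
  rw [← NumberField.RingOfIntegers.coe_eq_algebraMap, ← ha]
  ring

/-- `1 + M l = (t + M a) / t` with `t + M a` coprime to `M` (`72 ∣ M`, so `M` is not a unit) -/
theorem U_ne_zero {x : F} (h : v.U x) : x ≠ 0 := by
  obtain ⟨t, b, -, hb, e⟩ := v.loca_num h
  rintro rfl
  exact v.loca_ne_zero' hb (by rw [← e, mul_zero])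

theorem U_mem_L {x : F} (h : v.U x) : x ∈ v.L := by
  obtain ⟨l, hl, rfl⟩ := h
  exact add_mem (one_mem _) (mul_mem (natCast_mem _ _) hl)

theorem U_inv {x : F} (h : v.U x) : v.U x⁻¹ := by
  have h0 := v.U_ne_zero h
  obtain ⟨t, b, ht, hb, e⟩ := v.loca_num h
  have h1 : x⁻¹ ∈ v.L := by
    have h2 : x⁻¹ = t * (b : F)⁻¹ := by
      rw [← e, mul_inv, ← mul_assoc, mul_inv_cancel₀ (Nat.cast_ne_zero.2 (v.loca_ne_zero ht)), one_mul]
    rw [h2]
    exact mul_mem (natCast_mem _ _) (v.inv_mem_L hb)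
  obtain ⟨l, hl, e'⟩ := h
  refine ⟨-(l * x⁻¹), neg_mem (mul_mem hl h1), ?_⟩
  have h3 := mul_inv_cancel₀ h0
  linear_combination h3 - x⁻¹ * e'

theorem U_mul {x y : F} (hx : v.U x) (hy : v.U y) : v.U (x * y) := by
  obtain ⟨l, hl, rfl⟩ := hx
  obtain ⟨l', hl', rfl⟩ := hy
  exact ⟨l + l' + v.M * (l * l'), add_mem (add_mem hl hl') (mul_mem (natCast_mem _ _) (mul_mem hl hl')),
    by ring⟩

theorem U_one : v.U 1 := ⟨0, zero_mem _, by simp⟩

/-- Bezout for `M^k` and `t` -/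
theorem inter {x : F} (hR : x ∈ v.R) (hL : x ∈ v.L) : ∃ a : 𝓞 F, x = a := by
  obtain ⟨k, a, ha⟩ := hR
  obtain ⟨t, b, ht, hb⟩ := hL
  obtain ⟨u, w, huw⟩ : IsCoprime (t : 𝓞 F) ((v.M : 𝓞 F) ^ k) := ht.cast.pow_right
  have h1 := congrArg (fun z : 𝓞 F => (z : F)) huw
  refine ⟨u * b + w * a, ?_⟩
  simp only [map_add, map_mul, map_pow, map_natCast, map_one] at h1 ⊢
  rw [← NumberField.RingOfIntegers.coe_eq_algebraMap a, ← NumberField.RingOfIntegers.coe_eq_algebraMap b,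
    ← ha, ← hb]
  linear_combination -x * h1

theorem U_inter {x : F} (hR : x ∈ v.R) (hU : v.U x) : ∃ a : 𝓞 F, x = a ∧ (v.M : 𝓞 F) ∣ a - 1 := by
  obtain ⟨l, hl, rfl⟩ := hU
  have h1 : l ∈ v.R := by
    have h2 := mul_mem v.inv_M_mem (sub_mem hR (one_mem _))
    rwa [add_sub_cancel_left, inv_mul_cancel_left₀ v.M_ne] at h2
  obtain ⟨c, rfl⟩ := v.inter h1 hl
  exact ⟨1 + v.M * c, by simp, c, by ring⟩

theorem U_coe {a : 𝓞 F} (h : (v.M : 𝓞 F) ∣ a - 1) : v.U a := by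
  obtain ⟨c, hc⟩ := h
  refine ⟨c, v.coe_mem_L c, ?_⟩
  rw [show a = 1 + v.M * c by linear_combination hc]
  simp

/-- `IsLocalization.exists_integer_multiple`-type statement (`exists_integral_multiples`) -/
theorem exists_nat_mul (x : F) : ∃ (m : ℕ) (a : 𝓞 F), 0 < m ∧ (m : F) * x = a := by
  have hx : IsAlgebraic ℤ x := IsFractionRing.isAlgebraic_iff ℤ _ _ |>.mpr (.of_finite ℚ x)
  obtain ⟨m, r, hm, hmr⟩ := hx.exists_nsmul_eq (𝓞 F)
  exact ⟨m, r, Nat.pos_of_ne_zero hm, by rw [← nsmul_eq_mul, hmr]⟩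

/-- every positive integer is `m₁ t` with `m₁ ∣ M^k`, `t` coprime to `M` -/
theorem nat_split {m : ℕ} (hm : 0 < m) : ∃ m₁ t k : ℕ, m = m₁ * t ∧ m₁ ∣ v.M ^ k ∧ t.Coprime v.M := by
  induction m using Nat.strong_induction_on with
  | _ m ih =>
    by_cases h : m.Coprime v.M
    · exact ⟨1, m, 0, by simp, by simp, h⟩
    · obtain ⟨m', hm'⟩ := Nat.gcd_dvd_left m v.M
      have hg : 1 < Nat.gcd m v.M := by
        have h0 : 0 < Nat.gcd m v.M := Nat.gcd_pos_of_pos_left _ hm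
        have h1 : Nat.gcd m v.M ≠ 1 := h
        omega
      have hm'0 : 0 < m' := by
        rcases Nat.eq_zero_or_pos m' with h0 | h0
        · rw [h0, mul_zero] at hm'; omega
        · exact h0
      have hlt : m' < m := by
        calc m' = 1 * m' := (one_mul _).symm
          _ < Nat.gcd m v.M * m' := Nat.mul_lt_mul_of_pos_right hg hm'0
          _ = m := hm'.symm
      obtain ⟨m₁, t, k, h1, h2, h3⟩ := ih m' hlt hm'0
      refine ⟨Nat.gcd m v.M * m₁, t, k + 1, ?_, ?_, h3⟩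
      · rw [mul_assoc, ← h1]; exact hm'
      · rw [pow_succ']; exact mul_dvd_mul (Nat.gcd_dvd_right _ _) h2

/-- `x = a / (m₁ t)`, Bezout -/
theorem decomp (x : F) : ∃ l ∈ v.L, x - l ∈ v.R := by
  obtain ⟨m, a, hm, ha⟩ := exists_nat_mul x
  obtain ⟨m₁, t, k, rfl, ⟨c, hc⟩, ht⟩ := v.nat_split hm
  have hcop : m₁.Coprime t := (Nat.Coprime.coprime_dvd_right ⟨c, hc⟩ (ht.pow_right k)).symm
  obtain ⟨p, q, hpq⟩ : IsCoprime (m₁ : ℤ) (t : ℤ) := Nat.isCoprime_iff_coprime.2 hcop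
  have hpq' : (p : F) * m₁ + q * t = 1 := by exact_mod_cast congrArg (Int.cast : ℤ → F) hpq
  have hL : (m₁ : F) * x ∈ v.L := ⟨t, a, ht, by rw [← ha]; push_cast; ring⟩
  have hR : (t : F) * x ∈ v.R := by
    refine ⟨k, (c : 𝓞 F) * a, ?_⟩
    have hc' : (v.M : F) ^ k = m₁ * c := by exact_mod_cast congrArg (Nat.cast : ℕ → F) hc
    simp only [map_mul, map_natCast]
    rw [← NumberField.RingOfIntegers.coe_eq_algebraMap, ← ha, hc']
    push_cast; ring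
  refine ⟨(p : F) * ((m₁ : F) * x), mul_mem (intCast_mem _ p) hL, ?_⟩
  have : x - (p : F) * ((m₁ : F) * x) = (q : F) * ((t : F) * x) := by
    linear_combination (-x) * hpq'
  rw [this]
  exact mul_mem (intCast_mem _ q) hR

/-- `F = b R + c L`.  Enough for `b = 1`; `c L` contains a positive integer `m = m₁ t` times `L`, `m L = m₁ L`,
decompose `x / m₁` -/
theorem decomp' {b c : F} (hb : b ≠ 0) (hc : c ≠ 0) (x : F) : ∃ r ∈ v.R, ∃ l ∈ v.L, x = b * r + c * l := by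
  obtain ⟨m, a, hm, ha⟩ := exists_nat_mul (b / c)
  obtain ⟨m₁, t, k, rfl, -, ht⟩ := v.nat_split hm
  have hm₁ : (m₁ : F) ≠ 0 := Nat.cast_ne_zero.2 (Nat.pos_of_mul_pos_right hm).ne'
  have ht0 : (t : F) ≠ 0 := Nat.cast_ne_zero.2 (Nat.pos_of_mul_pos_left hm).ne'
  obtain ⟨l, hl, hr⟩ := v.decomp (x / (b * m₁))
  refine ⟨(m₁ : F) * (x / (b * m₁) - l), mul_mem (natCast_mem _ _) hr,
    (a : F) * (t : F)⁻¹ * l, mul_mem (mul_mem (v.coe_mem_L a) (v.inv_nat_mem_L ht)) hl, ?_⟩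
  rw [← ha]
  push_cast
  field_simp
  ring

/-- approximation: `x - a₀ = b r + (x M) l`, `a = a₀ + b r` -/
theorem approx {x : F} (hx : x ≠ 0) {b : v.R} (hb : b ≠ 0) (a₀ : v.R) :
    ∃ a : v.R, b ∣ a - a₀ ∧ v.U (a / x) := by
  have hb' : (b : F) ≠ 0 := fun h => hb (Subtype.ext h)
  obtain ⟨r, hr, l, hl, h⟩ := v.decomp' hb' (mul_ne_zero hx v.M_ne) (x - a₀)
  refine ⟨a₀ + b * ⟨r, hr⟩, ⟨⟨r, hr⟩, by ring⟩, -l, neg_mem hl, ?_⟩
  rw [div_eq_iff hx]
  push_cast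
  linear_combination -h

/-! ### part b: ideals -/

instance isLoc : IsLocalization.Away (v.M : 𝓞 F) v.R := by
  refine IsLocalization.Away.mk _ ?_ ?_ ?_
  · rw [map_natCast]; exact v.isUnit_M
  · rintro ⟨x, k, a, ha⟩
    refine ⟨k, a, Subtype.ext ?_⟩
    rw [map_natCast]
    push_cast
    rw [mul_comm]
    exact ha
  · intro a b h
    exact ⟨0, by rw [v.up_injective h]⟩

instance isDed : IsDedekindDomain v.R :=
  IsLocalization.isDedekindDomain (𝓞 F) (powers_le_nonZeroDivisors_of_noZeroDivisors v.M_ne') v.R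

/-- `I = map (comap I)`; `v.gen` for `comap I`, `map J = ⊤` -/
instance isPID : IsPrincipalIdealRing v.R := by
  refine ⟨fun I => ?_⟩
  have hI := IsLocalization.map_under (Submonoid.powers (v.M : 𝓞 F)) v.R I
  by_cases h0 : I.under (𝓞 F) = ⊥
  · rw [h0, Ideal.map_bot] at hI
    rw [← hI]
    exact bot_isPrincipal
  · obtain ⟨J, a, hJ, hIJ⟩ := v.gen _ h0
    have hJ' : J.map (algebraMap (𝓞 F) v.R) = ⊤ :=
      Ideal.eq_top_of_isUnit_mem _ (Ideal.mem_map_of_mem _ hJ) (by rw [map_natCast]; exact v.isUnit_M)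
    have h1 := congrArg (Ideal.map (algebraMap (𝓞 F) v.R)) hIJ
    rw [Ideal.map_mul, hI, hJ', Ideal.mul_top, Ideal.map_span, Set.image_singleton] at h1
    exact ⟨⟨_, h1⟩⟩

theorem mem_idl {a : 𝓞 F} {n : v.R} : a ∈ v.idl n ↔ n ∣ v.up a := by
  rw [idl, Ideal.mem_comap, Ideal.mem_span_singleton]

theorem map_idl (n : v.R) : (v.idl n).map (algebraMap (𝓞 F) v.R) = Ideal.span {n} := by
  exact IsLocalization.map_under (Submonoid.powers (v.M : 𝓞 F)) v.R _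

@[simp] theorem idl_zero : v.idl 0 = ⊥ := by
  rw [idl, Ideal.span_singleton_eq_bot.2 rfl]
  exact Ideal.comap_bot_of_injective _ v.up_injective

theorem idl_unit {n : v.R} (h : IsUnit n) : v.idl n = ⊤ := by
  rw [idl, Ideal.span_singleton_eq_top.2 h, Ideal.comap_top]

theorem idl_ne_bot {n : v.R} (h : n ≠ 0) : v.idl n ≠ ⊥ := by
  intro h0
  have := v.map_idl n
  rw [h0, Ideal.map_bot] at this
  exact h (Ideal.span_singleton_eq_bot.1 this.symm)

/-- if a prime `P` contains `M` and `idl n = P I'` then `M I' ⊆ idl n`, so `I' ⊆ idl n = P I'` -/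
theorem cp_idl {n : v.R} (h : n ≠ 0) : Cp (v.idl n) (v.M : 𝓞 F) := by
  by_contra hc
  rw [Cp, Ideal.isCoprime_iff_sup_eq] at hc
  obtain ⟨P, hP, hle⟩ := Ideal.exists_le_maximal _ hc
  have hM : (v.M : 𝓞 F) ∈ P := hle (Ideal.mem_sup_right (Ideal.mem_span_singleton_self _))
  obtain ⟨I, hI⟩ := Ideal.dvd_iff_le.2 (le_sup_left.trans hle)
  have h0 : I ≠ 0 := by
    rintro rfl
    exact v.idl_ne_bot h (by rw [hI, mul_zero]; rfl)
  have h1 : I ≤ I * P := by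
    intro a ha
    rw [mul_comm, ← hI, mem_idl, ← v.isUnit_M.dvd_mul_left, ← map_natCast (algebraMap (𝓞 F) v.R),
      ← map_mul, ← mem_idl, hI]
    exact Ideal.mul_mem_mul hM ha
  have h2 : I * P ∣ I * 1 := by rw [mul_one]; exact Ideal.dvd_iff_le.2 h1
  exact hP.ne_top (Ideal.isUnit_iff.1 (isUnit_of_dvd_one ((mul_dvd_mul_iff_left h0).1 h2)))

theorem cp_idl_six {n : v.R} (h : n ≠ 0) : Cp (v.idl n) 6 := by
  obtain ⟨c, hc⟩ := v.dvd
  have h1 := v.cp_idl h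
  rw [show (v.M : 𝓞 F) = 6 * (12 * c) by rw [hc]; push_cast; ring] at h1
  exact (cp_mul_right.1 h1).1

theorem locc_mem {I : Ideal (𝓞 F)} {a : 𝓞 F} (h : v.up a ∈ I.map (algebraMap (𝓞 F) v.R)) :
    ∃ k : ℕ, a * (v.M : 𝓞 F) ^ k ∈ I := by
  obtain ⟨⟨i, s, k, rfl⟩, hx⟩ :=
    (IsLocalization.mem_map_algebraMap_iff (Submonoid.powers (v.M : 𝓞 F)) v.R).1 h
  refine ⟨k, ?_⟩
  rw [← map_mul] at hx
  rw [v.up_injective hx]
  exact i.2

/-- `M^k a ∈ I` gives `a ∈ I` (`IsLocalization.mem_map_algebraMap_iff`) -/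
theorem idl_eq {n : v.R} {I : Ideal (𝓞 F)} (hI : Cp I (v.M : 𝓞 F))
    (h : I.map (algebraMap (𝓞 F) v.R) = Ideal.span {n}) : v.idl n = I := by
  rw [idl, ← h]
  refine le_antisymm (fun a ha => ?_) Ideal.le_comap_map
  obtain ⟨k, hk⟩ := v.locc_mem ha
  obtain ⟨w, hw⟩ := cp_iff.1 (hI.pow k)
  rw [show a = a * (v.M : 𝓞 F) ^ k * w - a * ((v.M : 𝓞 F) ^ k * w - 1) by ring]
  exact I.sub_mem (I.mul_mem_right _ hk) (I.mul_mem_left _ hw)

theorem idl_mul (m n : v.R) : v.idl (m * n) = v.idl m * v.idl n := by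
  by_cases hm : m = 0
  · rw [hm, zero_mul, idl_zero, Ideal.bot_mul]
  by_cases hn : n = 0
  · rw [hn, mul_zero, idl_zero, Ideal.mul_bot]
  refine v.idl_eq (cp_mul_left.2 ⟨v.cp_idl hm, v.cp_idl hn⟩) ?_
  rw [Ideal.map_mul, map_idl, map_idl, Ideal.span_singleton_mul_span_singleton]

theorem idl_pow (n : v.R) (k : ℕ) : v.idl (n ^ k) = v.idl n ^ k := by
  induction k with
  | zero => rw [pow_zero, pow_zero, v.idl_unit isUnit_one, Ideal.one_eq_top]
  | succ k ih => rw [pow_succ, pow_succ, idl_mul, ih]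

theorem idl_up {a : 𝓞 F} (h : IsCoprime a (v.M : 𝓞 F)) : v.idl (v.up a) = Ideal.span {a} := by
  refine v.idl_eq (cp_span.2 h) ?_
  rw [Ideal.map_span, Set.image_singleton]

theorem idl_up_of_mul {b : 𝓞 F} {J J' : Ideal (𝓞 F)} {m : ℕ} (h : Ideal.span {b} = J * J')
    (hJ : Cp J (v.M : 𝓞 F)) (hJ' : (v.M : 𝓞 F) ^ m ∈ J') : v.idl (v.up b) = J := by
  refine v.idl_eq hJ ?_
  have h1 : J'.map (algebraMap (𝓞 F) v.R) = ⊤ :=
    Ideal.eq_top_of_isUnit_mem _ (Ideal.mem_map_of_mem _ hJ') (v.isUnit_up dvd_rfl)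
  have h2 := congrArg (Ideal.map (algebraMap (𝓞 F) v.R)) h
  rw [Ideal.map_mul, h1, Ideal.mul_top, Ideal.map_span, Set.image_singleton] at h2
  exact h2.symm

/-- `idl (up b) ∣ (b)`; every prime factor of the cofactor contains `M` -/
theorem exists_split {b : 𝓞 F} (hb : b ≠ 0) :
    ∃ (J' : Ideal (𝓞 F)) (m : ℕ), Ideal.span {b} = v.idl (v.up b) * J' ∧ (v.M : 𝓞 F) ^ m ∈ J' := by
  obtain ⟨J', h⟩ := Ideal.dvd_iff_le.2
    ((Ideal.span_singleton_le_iff_mem (v.idl (v.up b))).2 (v.mem_idl.2 dvd_rfl))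
  have h0 : v.up b ≠ 0 := fun h0 => hb (v.up_injective (h0.trans (map_zero _).symm))
  have h1 : (Ideal.span {v.up b} : Ideal v.R) ≠ 0 := fun h1 => h0 (Ideal.span_singleton_eq_bot.1 h1)
  have h2 := congrArg (Ideal.map (algebraMap (𝓞 F) v.R)) h
  rw [Ideal.map_mul, map_idl, Ideal.map_span, Set.image_singleton] at h2
  have h3 : J'.map (algebraMap (𝓞 F) v.R) = 1 :=
    mul_left_cancel₀ h1 (by rw [mul_one]; exact h2.symm)
  obtain ⟨k, hk⟩ := v.locc_mem (I := J') (a := 1) (by rw [h3, Ideal.one_eq_top]; trivial)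
  exact ⟨J', k, h, by rwa [one_mul] at hk⟩

theorem exists_idl {I : Ideal (𝓞 F)} (hI : I ≠ ⊥) (h : Cp I (v.M : 𝓞 F)) : ∃ n : v.R, n ≠ 0 ∧ v.idl n = I := by
  obtain ⟨n, hn⟩ := (IsPrincipalIdealRing.principal (I.map (algebraMap (𝓞 F) v.R))).principal
  have h1 := v.idl_eq h hn
  refine ⟨n, ?_, h1⟩
  rintro rfl
  exact hI (by rw [← h1, idl_zero])

theorem idl_le_iff {m n : v.R} : v.idl n ≤ v.idl m ↔ m ∣ n := by
  constructor
  · intro h
    have := Ideal.map_mono (f := algebraMap (𝓞 F) v.R) h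
    rwa [map_idl, map_idl, Ideal.span_singleton_le_span_singleton] at this
  · intro h a ha
    exact v.mem_idl.2 (h.trans (v.mem_idl.1 ha))

theorem idl_eq_iff {m n : v.R} : v.idl m = v.idl n ↔ Associated m n := by
  rw [le_antisymm_iff, idl_le_iff, idl_le_iff, ← dvd_dvd_iff_associated, and_comm]

/-- `u = a / M^k` and `M` is invertible modulo `idl n` -/
theorem exists_lift {n : v.R} (hn : n ≠ 0) (u : v.R) : ∃ a : 𝓞 F, n ∣ v.up a - u := by
  obtain ⟨k, a, ha⟩ := v.mem_R.1 u.2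
  obtain ⟨w, hw⟩ := cp_iff.1 ((v.cp_idl hn).pow k)
  refine ⟨a * w, ?_⟩
  have e : v.up (a * w) - u = v.up ((v.M : 𝓞 F) ^ k * w - 1) * u := by
    apply Subtype.ext
    have h1 : ((v.up (a * w) - u : v.R) : F) = (a : F) * w - u := by
      rw [Subalgebra.coe_sub, coe_up]
      simp
    have h2 : ((v.up ((v.M : 𝓞 F) ^ k * w - 1) * u : v.R) : F) = ((v.M : F) ^ k * w - 1) * u := by
      rw [Subalgebra.coe_mul, coe_up]
      simp
    rw [h1, h2, ← ha]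
    ring
  rw [e]
  exact (v.mem_idl.1 hw).mul_right u

theorem quot_bij {n : v.R} (hn : n ≠ 0) : Function.Bijective
    (Ideal.quotientMap (Ideal.span {n}) (algebraMap (𝓞 F) v.R) le_rfl : 𝓞 F ⧸ v.idl n → v.R ⧸ Ideal.span {n}) := by
  refine ⟨Ideal.quotientMap_injective, fun x => ?_⟩
  obtain ⟨u, rfl⟩ := Ideal.Quotient.mk_surjective x
  obtain ⟨a, ha⟩ := v.exists_lift hn u
  exact ⟨Ideal.Quotient.mk _ a, Ideal.Quotient.eq.2 (Ideal.mem_span_singleton.2 ha)⟩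

theorem prime_idl {p : v.R} (hp : Prime p) : Prime (v.idl p) := by
  have : (Ideal.span {p}).IsPrime := (Ideal.span_singleton_prime hp.ne_zero).2 hp
  exact Ideal.prime_of_isPrime (v.idl_ne_bot hp.ne_zero) (Ideal.comap_isPrime _ _)

theorem cp_idl_iff {n : v.R} (hn : n ≠ 0) {a : 𝓞 F} : Cp (v.idl n) a ↔ IsCoprime (v.up a) n := by
  rw [cp_iff]
  constructor
  · rintro ⟨w, hw⟩
    obtain ⟨c, hc⟩ := v.mem_idl.1 hw
    simp only [up, map_sub, map_mul, map_one] at hc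
    exact ⟨v.up w, -c, by linear_combination hc⟩
  · rintro ⟨x, y, h⟩
    obtain ⟨w, c, hc⟩ := v.exists_lift hn x
    refine ⟨w, v.mem_idl.2 ⟨v.up a * c - y, ?_⟩⟩
    simp only [up, map_sub, map_mul, map_one] at h hc ⊢
    linear_combination h + algebraMap (𝓞 F) v.R a * hc

theorem finite_quot {n : v.R} (hn : n ≠ 0) : Finite (v.R ⧸ Ideal.span {n}) := by
  exact @Finite.of_surjective _ _ (Ideal.finiteQuotientOfFreeOfNeBot _ (v.idl_ne_bot hn)) _
    (v.quot_bij hn).2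

theorem N_eq_card {n : v.R} (hn : n ≠ 0) : v.N n = Nat.card (v.R ⧸ Ideal.span {n}) := by
  rw [N, Ideal.absNorm_apply, Submodule.cardQuot_apply]
  exact Nat.card_eq_of_bijective _ (v.quot_bij hn)

theorem N_mul (m n : v.R) : v.N (m * n) = v.N m * v.N n := by
  rw [N, idl_mul, map_mul, N, N]

end Crest.Agent.R27.G.Lv
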