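import Crest.Agent.R27.G.Loc

/-! Row 27, block G: the additive character and the symbol on `R`.  Helper prefix `psi_`. -/

set_option autoImplicit false

namespace Crest.Agent.R27.G

open Crest.Agent.R17 Crest.NumberTheoryR.EisensteinField
open scoped ComplexConjugate Classical NumberField

variable {F : Type} [Field F] [NumberField F]

/-! ### part a: the additive character -/

theorem eT_add (x y : F) : eT (x + y) = eT x * eT y := by
  rw [eT, eT, eT, map_add, Rat.cast_add, mul_add, Complex.exp_add]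

@[simp] theorem eT_zero : eT (0 : F) = 1 := by
  simp [eT]

theorem norm_eT (x : F) : ‖eT x‖ = 1 := by
  have : (2 * Real.pi * Complex.I * ((Algebra.trace ℚ F x : ℚ) : ℂ)) =
      ((2 * Real.pi * ((Algebra.trace ℚ F x : ℚ) : ℝ) : ℝ) : ℂ) * Complex.I := by
    push_cast; ring
  rw [eT, this, Complex.norm_exp_ofReal_mul_I]

theorem eT_neg (x : F) : eT (-x) = conj (eT x) := by
  rw [eT, eT, ← Complex.exp_conj]
  congr 1
  simp [map_ofNat]

theorem eT_eq_one {x : F} : eT x = 1 ↔ ∃ n : ℤ, Algebra.trace ℚ F x = n := by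
  rw [eT, Complex.exp_eq_one_iff]
  refine exists_congr fun n => ?_
  rw [mul_comm (n : ℂ), mul_right_inj' Complex.two_pi_I_ne_zero, ← Rat.cast_intCast, Rat.cast_inj]

/-- `Algebra.coe_trace_int`, or `Algebra.isIntegral_trace` and `IsIntegrallyClosed` -/
theorem eT_coe (a : 𝓞 F) : eT (a : F) = 1 := by
  exact eT_eq_one.2 ⟨Algebra.trace ℤ (𝓞 F) a, (Algebra.coe_trace_int a).symm⟩

namespace Lv

variable [Algebra K3 F] (v : Lv F)

theorem lp_spec (x : F) : v.lp x ∈ v.L ∧ x - v.lp x ∈ v.R := by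
  rw [lp, dif_pos (v.decomp x)]
  exact (v.decomp x).choose_spec

theorem psi_eq {x l : F} (hl : l ∈ v.L) (h : x - l ∈ v.R) : v.psi x = eT l := by
  obtain ⟨h1, h2⟩ := v.lp_spec x
  have hR : v.lp x - l ∈ v.R := by
    have := sub_mem h h2
    rwa [sub_sub_sub_cancel_left] at this
  obtain ⟨a, ha⟩ := v.inter hR (sub_mem h1 hl)
  rw [psi, eq_add_of_sub_eq ha, eT_add, eT_coe, one_mul]

theorem psi_L {x : F} (h : x ∈ v.L) : v.psi x = eT x := v.psi_eq h (by simp)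

theorem psi_R {x : F} (h : x ∈ v.R) : v.psi x = 1 := by
  rw [v.psi_eq (zero_mem _) (by simpa using h), eT_zero]

theorem psi_add (x y : F) : v.psi (x + y) = v.psi x * v.psi y := by
  obtain ⟨h1, h2⟩ := v.lp_spec x
  obtain ⟨h3, h4⟩ := v.lp_spec y
  rw [v.psi_eq (add_mem h1 h3) (by rw [add_sub_add_comm]; exact add_mem h2 h4), eT_add, psi, psi]

theorem norm_psi (x : F) : ‖v.psi x‖ = 1 := norm_eT _

theorem psi_neg (x : F) : v.psi (-x) = conj (v.psi x) := by
  obtain ⟨h1, h2⟩ := v.lp_spec x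
  rw [v.psi_eq (neg_mem h1) (by rw [← neg_sub']; exact neg_mem h2), eT_neg, psi]

/-- for `y ∈ 𝓞 F`: `psi (x y) = eT (lp x · y)`; `v.dual` -/
theorem psi_dual {x : F} (h : ∀ y : 𝓞 F, v.psi (x * y) = 1) : x ∈ v.R := by
  obtain ⟨h1, h2⟩ := v.lp_spec x
  obtain ⟨a, ha⟩ := v.dual (v.lp x) fun y => eT_eq_one.1 (by
    rw [← h y, v.psi_eq (mul_mem h1 (v.coe_mem_L y))
      (by rw [← sub_mul]; exact mul_mem h2 (v.coe_mem_R y))])
  have h3 : v.lp x ∈ v.R := ⟨1, a, by rw [pow_one, ha]⟩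
  simpa using add_mem h2 h3

/-- `psi` as an additive character -/
noncomputable def psiC : AddChar F ℂ where
  toFun := v.psi
  map_zero_eq_one' := v.psi_R (zero_mem _)
  map_add_eq_mul' := v.psi_add

/-! ### part b: the symbol -/

theorem num_spec (u : v.R) : ∃ k : ℕ, (v.M : F) ^ (6 * k) * u = v.num u := by
  obtain ⟨k, a, ha⟩ := v.mem_R.1 u.2
  have h : ∃ a : 𝓞 F, ∃ k : ℕ, (v.M : F) ^ (6 * k) * u = a := by
    refine ⟨(v.M : 𝓞 F) ^ (5 * k) * a, k, ?_⟩
    simp only [map_mul, map_pow, map_natCast]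
    rw [← NumberField.RingOfIntegers.coe_eq_algebraMap, ← ha]
    ring
  rw [num, dif_pos h]
  exact h.choose_spec

theorem psi_up_eq {u : v.R} {a : 𝓞 F} {k : ℕ} (h : (v.M : F) ^ k * u = a) :
    v.up a = (v.M : v.R) ^ k * u := by
  refine Subtype.ext ?_
  rw [coe_up, ← h]
  simp

theorem psi_sI_M {n : v.R} (hn : n ≠ 0) (k : ℕ) (a : 𝓞 F) :
    sI ((v.M : 𝓞 F) ^ (6 * k) * a) (v.idl n) = sI a (v.idl n) := by
  rw [sI_mul_left, sI_pow_left _ (v.cp_idl_six hn), pow_mul, sI_pow_six,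
    if_pos ⟨v.cp_idl_six hn, v.cp_idl hn⟩, one_pow, one_mul]

/-- `num u ≡ M^(6k) a (mod idl n)`, `sI (M^6) (idl n) = 1` -/
theorem sx_eq {u n : v.R} {a : 𝓞 F} (h : n ∣ v.up a - u) : v.sx u n = sI a (v.idl n) := by
  by_cases hn : n = 0
  · simp [hn, sx]
  obtain ⟨k, hk⟩ := v.num_spec u
  rw [sx, ← v.psi_sI_M hn k a]
  refine sI_congr (v.mem_idl.2 ?_)
  have : v.up (v.num u - (v.M : 𝓞 F) ^ (6 * k) * a) = -((v.M : v.R) ^ (6 * k)) * (v.up a - u) := by
    have h2 := v.psi_up_eq hk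
    simp only [up, map_sub, map_mul, map_pow, map_natCast] at h2 ⊢
    rw [h2]
    ring
  rw [this]
  exact h.mul_left _

theorem sx_up (a : 𝓞 F) (n : v.R) : v.sx (v.up a) n = sI a (v.idl n) := v.sx_eq (by simp)

theorem sx_eq' {u : v.R} (n : v.R) {a : 𝓞 F} {k : ℕ} (h : (v.M : F) ^ (6 * k) * u = a) :
    v.sx u n = sI a (v.idl n) := by
  by_cases hn : n = 0
  · simp [hn, sx]
  obtain ⟨l, hl⟩ := v.num_spec u
  rw [sx, ← v.psi_sI_M hn l a, ← v.psi_sI_M hn k (v.num u)]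
  congr 1
  apply v.up_injective
  have h1 := v.psi_up_eq h
  have h2 := v.psi_up_eq hl
  simp only [up, map_mul, map_pow, map_natCast] at h1 h2 ⊢
  rw [h1, h2]
  ring

@[simp] theorem sx_zero_right (u : v.R) : v.sx u 0 = 0 := by simp [sx]

theorem sx_unit_right (u : v.R) {n : v.R} (h : IsUnit n) : v.sx u n = 1 := by
  rw [sx, v.idl_unit h, sI_top]

theorem sx_mul_right (u m n : v.R) : v.sx u (m * n) = v.sx u m * v.sx u n := by
  rw [sx, v.idl_mul, sI_mul_right, sx, sx]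

theorem sx_mul_left (u w n : v.R) : v.sx (u * w) n = v.sx u n * v.sx w n := by
  obtain ⟨k, hk⟩ := v.num_spec u
  obtain ⟨l, hl⟩ := v.num_spec w
  have h : (v.M : F) ^ (6 * (k + l)) * ((u * w : v.R) : F) = ((v.num u * v.num w : 𝓞 F) : F) := by
    simp only [map_mul, MulMemClass.coe_mul]
    rw [← NumberField.RingOfIntegers.coe_eq_algebraMap, ← NumberField.RingOfIntegers.coe_eq_algebraMap,
      ← hk, ← hl]
    ring
  rw [v.sx_eq' n h, sI_mul_left, sx, sx]

theorem sx_congr {u w n : v.R} (h : n ∣ u - w) : v.sx u n = v.sx w n := by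
  by_cases hn : n = 0
  · simp [hn]
  obtain ⟨a, ha⟩ := v.exists_lift hn u
  have h2 : n ∣ v.up a - w := by simpa using ha.add h
  rw [v.sx_eq ha, v.sx_eq h2]

theorem sx_pow_six (u : v.R) {n : v.R} (hn : n ≠ 0) : v.sx u n ^ 6 = if IsCoprime u n then 1 else 0 := by
  obtain ⟨a, ha⟩ := v.exists_lift hn u
  rw [v.sx_eq ha, sI_pow_six]
  refine if_congr ?_ rfl rfl
  obtain ⟨c, hc⟩ := ha
  rw [and_iff_right (v.cp_idl_six hn), v.cp_idl_iff hn, eq_add_of_sub_eq' hc,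
    IsCoprime.add_mul_left_left_iff]

theorem exists_sx_eq_zt {p : v.R} (hp : Prime p) : ∃ u, v.sx u p = sg zt := by
  obtain ⟨a, ha⟩ := exists_sI_eq_zt (v.prime_idl hp) (v.cp_idl_six hp.ne_zero)
  exact ⟨v.up a, by rw [v.sx_up, ha]⟩

/-- reciprocity on `R`: `w = up a` with `a ≡ 1 (mod M)` (`U_inter`), `sx b w = sE (num b) a`, `v.recip` with
`exists_split`, `idl (up (num b)) = idl b` -/
theorem sx_recip {w b : v.R} (hw : v.U w) (hb : b ≠ 0) : v.sx b w = v.sx w b := by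
  obtain ⟨a, ha, hM⟩ := v.U_inter w.2 hw
  obtain rfl : w = v.up a := Subtype.ext ha
  have hc : IsCoprime a (v.M : 𝓞 F) := by
    obtain ⟨c, hc⟩ := hM
    exact ⟨1, -c, by linear_combination hc⟩
  obtain ⟨k, hk⟩ := v.num_spec b
  have has : Associated (v.up (v.num b)) b := by
    rw [v.psi_up_eq hk]
    exact associated_unit_mul_left _ _ (v.isUnit_M.pow _)
  have hb1 : v.up (v.num b) ≠ 0 := has.ne_zero_iff.2 hb
  have hb0 : v.num b ≠ 0 := fun h => hb1 (by rw [h, up, map_zero])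
  obtain ⟨J', m, hJ, hm⟩ := v.exists_split hb0
  have h := v.recip a (v.num b) _ J' m hM hb0 hJ (v.cp_idl hb1) hm
  rw [v.sx_up, sx, v.idl_up hc, ← v.idl_eq_iff.2 has]
  exact h

end Lv

end Crest.Agent.R27.G
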